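import Crest.Agent.X277.BD.Cyc
import Crest.Agent.X277.BD.Vol2
import Crest.Agent.X277.Hl.HlA
import Crest.Agent.X277.Rgr.Main
import Crest.Agent.X277.BD.BrA
import Crest.Agent.X262.Mod79.Neg

/-!
# Row 262, RHO (helper82), part 1: numerically trivial classes

* `Bd H a`, `null_of_bd`       : classes bounded by a nef class;
* `cyc_nonneg`, `cyc_zero`     : the cycle formula without models;
* `numZ_of_hodge`              : `z · H^(n-1) = z² · H^(n-2) = 0` implies `z ≡ 0`;
* `eq_zero_of_null`            : an effective numerically trivial b-divisor is zero;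
* `nef_of_numZ`                : numerically trivial classes are nef.
-/

set_option autoImplicit false
set_option linter.unusedSectionVars false

noncomputable section

namespace Crest.Agent.X262.Rho82

open Crest.Agent.X277 Crest.Agent.X277.BD Crest.Agent.X277.BD.Cyc Crest.Agent.X277.Pst
open Crest.Agent.X262.Mod Crest.Agent.X277.AN Crest.Agent.X277.AN.G2 WithZero
open List (replicate)

universe u

section Formal

variable {k F : Type*} [Field k] [Field F] [Algebra k F] {H a b : BD k F}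

/-- `a` is bounded by the nef class `H` -/
def Bd (H a : BD k F) : Prop := ∃ c : ℕ, Nef (c • H + a) ∧ Nef (c • H - a)

theorem bd_of_car (h : Car H a) : Bd H a := by
  obtain ⟨c, h1, h2⟩ := h
  exact ⟨c, h1.nef, h2.nef⟩

theorem bd_self (hH : Nef H) : Bd H H :=
  ⟨1, by simpa using hH.add hH, by simpa using Nef.zero⟩

theorem bd_of_nef (hH : Nef H) (ha : Nef a) {c : ℕ} (h : Nef (c • H - a)) : Bd H a :=
  ⟨c, (hH.nsmul c).add ha, h⟩

theorem Bd.neg (h : Bd H a) : Bd H (-a) := by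
  obtain ⟨c, h1, h2⟩ := h
  exact ⟨c, by rwa [← sub_eq_add_neg], by rwa [sub_neg_eq_add]⟩

theorem Bd.add (ha : Bd H a) (hb : Bd H b) : Bd H (a + b) := by
  obtain ⟨c, h1, h2⟩ := ha
  obtain ⟨d, h3, h4⟩ := hb
  refine ⟨c + d, ?_, ?_⟩
  · convert h1.add h3 using 1
    rw [add_nsmul]
    abel
  · convert h2.add h4 using 1
    rw [add_nsmul]
    abel

theorem Bd.sub (ha : Bd H a) (hb : Bd H b) : Bd H (a - b) := sub_eq_add_neg a b ▸ ha.add hb.neg

theorem bd_zero : Bd H 0 := ⟨0, by simpa using Nef.zero, by simpa using Nef.zero⟩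

theorem Bd.nsmul (ha : Bd H a) (m : ℕ) : Bd H (m • a) := by
  induction m with
  | zero => simpa using bd_zero
  | succ m ih => exact succ_nsmul a m ▸ ih.add ha

theorem Bd.zsmul (ha : Bd H a) (m : ℤ) : Bd H (m • a) := by
  obtain ⟨m, rfl | rfl⟩ := m.eq_nat_or_neg
  · exact natCast_zsmul a m ▸ ha.nsmul m
  · rw [neg_smul, natCast_zsmul]
    exact (ha.nsmul m).neg

variable {k' E : Type*} [Field k'] [Field E] [Algebra k' E] (p : Pl k F k' E)

theorem lin_rs_zero : Lin (p.rs 0) 0 := by simpa using p.lin_rs_res (a := 0) rfl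

theorem lin_rs_nsmul (n : ℕ) (x : BD k F) : Lin (p.rs (n • x)) (n • p.rs x) := by
  induction n with
  | zero => simpa using lin_rs_zero p
  | succ n ih => simpa only [succ_nsmul] using (p.lin_rs_add _ _).trans (ih.add Lin.rfl)

theorem lin_rs_neg (x : BD k F) : Lin (p.rs (-x)) (-p.rs x) := by
  have h := (p.lin_rs_add x (-x)).symm.trans (by simpa using lin_rs_zero p)
  simpa using (Lin.rfl (a := -p.rs x)).add h

theorem lin_rs_sub (x y : BD k F) : Lin (p.rs (x - y)) (p.rs x - p.rs y) := by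
  simpa only [sub_eq_add_neg] using (p.lin_rs_add x (-y)).trans (Lin.rfl.add (lin_rs_neg p y))

theorem lin_rs_zsmul (n : ℤ) (x : BD k F) : Lin (p.rs (n • x)) (n • p.rs x) := by
  obtain ⟨m, rfl | rfl⟩ := n.eq_nat_or_neg
  · simpa using lin_rs_nsmul p m x
  · simpa using (lin_rs_neg p _).trans (lin_rs_nsmul p m x).neg

theorem lin_rs_of_lin (h : Lin a b) : Lin (p.rs a) (p.rs b) := by
  obtain ⟨f, -, rfl⟩ := h
  simpa using (p.lin_rs_add _ _).trans (Lin.rfl.add (p.lin_rs_pr f))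

theorem Bd.rs (h : Bd H a) : Bd (p.rs H) (p.rs a) := by
  obtain ⟨c, h1, h2⟩ := h
  exact ⟨c, ((p.lin_rs_add _ _).trans ((lin_rs_nsmul p c H).add Lin.rfl)).symm.nef (h1.rs p),
    ((lin_rs_sub p _ _).trans (by
      simpa only [sub_eq_add_neg] using (lin_rs_nsmul p c H).add Lin.rfl)).symm.nef (h2.rs p)⟩

theorem car_rs (h : Car H a) : Car (p.rs H) (p.rs a) := by
  obtain ⟨c, h1, h2⟩ := h
  exact ⟨c, ((p.lin_rs_add _ _).trans ((lin_rs_nsmul p c H).add Lin.rfl)).symm.free (p.free_rs h1),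
    ((lin_rs_sub p _ _).trans (by
      simpa only [sub_eq_add_neg] using (lin_rs_nsmul p c H).add Lin.rfl)).symm.free
        (p.free_rs h2)⟩

theorem ne_top_of_lt {V : RZ k F} (h : 1 < a.val V) : V.1 ≠ ⊤ := fun h0 => by
  obtain rfl : V = RZ.top k F := Subtype.ext h0
  exact h.ne' (val_top a)

end Formal

variable {k F : Type u} [Field k] [Field F] [Algebra k F] [CharZero k] [Algebra.EssFiniteType k F]
variable {H a b z : BD k F} {l Λ : List (BD k F)} {d : ℕ}

theorem null_one (h : Bd H a) (hΛ : ∀ x ∈ Λ, Nef x) (h0 : bnum (H :: Λ) = 0) :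
    bnum (a :: Λ) = 0 := by
  obtain ⟨c, h1, h2⟩ := h
  have h3 := bnum_nonneg (all_con h1 hΛ)
  have h4 := bnum_nonneg (all_con h2 hΛ)
  rw [bnum_add, bnum_nsmul, h0] at h3
  rw [bnum_sub, bnum_nsmul, h0] at h4
  omega

/-- classes which are bounded by `H` are killed by everything which kills the powers of `H` -/
theorem null_of_bd (hH : Nef H) : ∀ (l : List (BD k F)), (∀ a ∈ l, Bd H a) →
    ∀ Λ : List (BD k F), (∀ x ∈ Λ, Nef x) → bnum (Λ ++ replicate l.length H) = 0 →
      bnum (Λ ++ l) = 0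
  | [], _, _, _, h => h
  | a :: l, hl, Λ, hΛ, h => by
    obtain ⟨ha, hl⟩ := List.forall_mem_cons.1 hl
    rw [List.length_cons, List.replicate_succ, bnum_mid] at h
    have h1 := null_one ha (all_app hΛ (all_rp hH _)) h
    obtain ⟨c, h2, -⟩ := ha
    have h3 := null_of_bd hH l hl ((c • H + a) :: Λ) (all_con h2 hΛ) (by
      rw [List.cons_append, bnum_add, bnum_nsmul, h, h1, mul_zero, add_zero])
    have h4 := null_of_bd hH l hl (H :: Λ) (all_con hH hΛ) h
    rw [List.cons_append] at h3 h4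
    rwa [bnum_add, bnum_nsmul, h4, mul_zero, zero_add, ← bnum_mid] at h3

/-- the same against an effective divisor -/
theorem null_eff (h : Bd H a) (hb : 0 ≤ b) (hΛ : ∀ x ∈ Λ, Nef x) (h0 : bnum (b :: H :: Λ) = 0) :
    bnum (b :: a :: Λ) = 0 := by
  obtain ⟨c, h1, h2⟩ := h
  have h3 := (eff_of_nonneg hb).bnum_nonneg (all_con h1 hΛ)
  have h4 := (eff_of_nonneg hb).bnum_nonneg (all_con h2 hΛ)
  rw [bnum_add2, bnum_nsmul2, h0] at h3
  rw [bnum_sub2, bnum_nsmul2, h0] at h4
  omega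

theorem lt_of_ordD {M : Mdl k F} {D : PDiv M.X} (h0 : 0 ≤ a) (h : ordD D a ≠ 0) :
    1 < a.val (rzD D) :=
  lt_of_le_of_ne (h0 _) fun h1 => h ((ordD_eq_zero_iff D).2 h1.symm)

theorem cyc_nonneg (hd : dim k F = d + 1) (h0 : 0 ≤ a)
    (h : ∀ (V : RZ k F) [Algebra.EssFiniteType k (Rf V)], dim k (Rf V) = d → 1 < a.val V →
      0 ≤ bnum (l.map (plV V).rs)) : 0 ≤ bnum (a :: l) := by
  obtain ⟨M, hM⟩ := exists_mdl (a :: l)
  obtain ⟨h1, h2⟩ := List.forall_mem_cons.1 hM
  rw [bnum_cyc hd h1 h2 (T := (finite_ordD h1).toFinset) fun D hD => by simpa using hD]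
  exact Finset.sum_nonneg fun D hD => mul_nonneg (ordD_nonneg D h0)
    (h _ (dim_Rf hd D) (lt_of_ordD h0 (by simpa using hD)))

theorem cyc_zero (hd : dim k F = d + 1) (h0 : 0 ≤ a)
    (h : ∀ (V : RZ k F) [Algebra.EssFiniteType k (Rf V)], dim k (Rf V) = d → 1 < a.val V →
      bnum (l.map (plV V).rs) = 0) : bnum (a :: l) = 0 := by
  obtain ⟨M, hM⟩ := exists_mdl (a :: l)
  obtain ⟨h1, h2⟩ := List.forall_mem_cons.1 hM
  rw [bnum_cyc hd h1 h2 (T := (finite_ordD h1).toFinset) fun D hD => by simpa using hD]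
  exact Finset.sum_eq_zero fun D hD => mul_eq_zero_of_right _
    (h _ (dim_Rf hd D) (lt_of_ordD h0 (by simpa using hD)))

/-- **Hodge nullity** -/
theorem numZ_of_hodge (hH : Nef H) (hb : Big H) (hz : Bd H z)
    (h1 : ∀ e, bnum (z :: replicate e H) = 0) (h2 : ∀ e, bnum (z :: z :: replicate e H) = 0) :
    NumZ z := fun l => by
  by_cases h0 : l.length + 1 = dim k F
  · obtain ⟨M, hM⟩ := exists_mdl (z :: H :: l)
    obtain ⟨h3, h7⟩ := List.forall_mem_cons.1 hM
    obtain ⟨h4, h8⟩ := List.forall_mem_cons.1 h7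
    clear hM h7
    obtain ⟨c, h5, h6⟩ := hz
    lift z to M.On using h3
    lift H to M.On using h4
    lift l to List M.On using h8
    rw [List.length_map] at h0
    have h := Hl.null_of_big' (N := fun a : M.On => Nef a.1) (A := H) (z := z) hH (m := c) h5 h6
      M.hf (by
        rw [M.inter_eq List.length_replicate, List.map_replicate]
        exact hH.big_iff.1 hb)
      (fun e he => by
        rw [M.inter_eq (by simpa using he), List.map_cons, List.map_replicate]
        exact h1 e)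
      (fun e he => by
        rw [M.inter_eq (by simpa using he), List.map_cons, List.map_cons, List.map_replicate]
        exact h2 e) l h0
    rwa [M.inter_eq (L := z :: l) h0] at h
  · exact bnum_of_ne h0

theorem exists_dim {V : RZ k F} (h : V.1 ≠ ⊤) : ∃ d, dim k F = d + 1 := by
  refine Nat.exists_eq_succ_of_ne_zero fun h2 => h (eq_top_iff.2 fun x _ => ?_)
  have h3 : Algebra.IsAlgebraic k F := trdeg_eq_zero_iff.1 (by rw [trdeg_eq_dim, h2]; rfl)
  obtain ⟨q, hq, h4⟩ := (h3.isAlgebraic x).isIntegral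
  refine Br.mem_of_monic (hq.map (algebraMap k F)) (fun i => ?_) (by rwa [Polynomial.eval_map])
  rw [Polynomial.coeff_map]
  exact V.2 _

/-- primes of the model are prime divisors -/
theorem exists_pdiv_prm {M : Mdl k F} {V : RZ k F} (h : Prm M.H V) :
    ∃ D : PDiv M.X, rzD D = V := by
  obtain ⟨d, h2⟩ := exists_dim h.1
  have h1 := (Rgr.dim_of_prm h).2
  rw [show dim k F - 1 = d by omega] at h1
  exact exists_pdiv_ctr h2 h.1 h1

/-- a valuation on which the hyperplane class stays big is a prime divisor of the model -/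
theorem exists_pdiv_of_ne {M : Mdl k F} (hd : dim k F = d + 1) {V : RZ k F}
    [Algebra.EssFiniteType k (Rf V)] (hV : dim k (Rf V) = d) (h0 : V.1 ≠ ⊤)
    (h : bnum (replicate d ((plV V).rs M.H)) ≠ 0) : ∃ D : PDiv M.X, rzD D = V := by
  refine exists_pdiv_ctr hd h0 fun h1 => h ?_
  obtain ⟨ι, hι⟩ := exists_dom (X := M.X) (Z := M.ctr V) (lnr_plV V) PZ.Sub.rfl PZ.Sub.rfl
  have h4 := hι.bnum_rs (S := M.S) (l := replicate d M.S.H) (by simp [hV])
  rwa [num_of_dimLT h1 (by simp), mul_zero, List.map_replicate, toBD_mdl] at h4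

/-- an effective divisor of degree zero on a model is zero -/
theorem eq_zero_of_deg {M : Mdl k F} (ha : a ∈ M.On) (h0 : 0 ≤ a)
    (h : ∀ e, bnum (a :: replicate e M.H) = 0) : a = 0 := by
  refine (car_mdl.2 ha).eq (isMod_mdl M) Car.zero fun V hV => ?_
  obtain ⟨D, rfl⟩ := exists_pdiv_prm hV
  obtain ⟨d, h2⟩ := exists_dim hV.1
  exact (ordD_eq_zero_iff D).1 (ordD_eq_zero h2 ha h0 (h d) D)

/-- two effective divisors without common valuation do not meet -/
theorem null_of_inf (ha : 0 ≤ a) (h : ∀ V, 1 < a.val V → b.val V = 1)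
    (l : List (BD k F)) : bnum (a :: b :: l) = 0 := by
  by_cases h0 : l.length + 1 + 1 = dim k F
  · refine cyc_zero h0.symm ha fun V _ _ h1 => ?_
    have h3 : (plV V).res b = 0 := ext' fun W => by
      have h4 : 1 < a.val ((plV V).cm W) := lt_of_le_of_ne (ha _) fun h4 => h1.ne' (by
        have h5 := val_of_le (a := a) (g := 1) ((plV V).cm_le W) (by rw [map_one, h4])
        rw [map_one] at h5
        exact h5.symm)
      rw [Pl.val_res (g := 1) (h V h1) (by rw [map_one, h _ h4]), Pl.r_one, map_one, val_zero]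
    rw [List.map_cons, (Pl.lin_rs_res (h V h1)).bnum_eq, h3, bnum_zero]
  · exact bnum_of_ne h0

/-- **negativity**: an effective class which is killed by a big class has negative square -/
theorem eq_zero_of_sq (hH : Nef H) (hb : Big H) (h0 : 0 ≤ a)
    (h1 : ∀ e, bnum (a :: replicate e H) = 0)
    (h2 : ∀ Λ : List (BD k F), bnum (a :: a :: Λ) = 0) : a = 0 := by
  obtain ⟨M, hM⟩ := exists_mdl1 a
  have key : ∀ j i, bnum (a :: (replicate i H ++ replicate j M.H)) = 0 := by
    intro j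
    induction j with
    | zero => simpa using h1
    | succ j ih =>
      intro i
      by_cases h3 : i + j + 2 = dim k F
      · rw [List.replicate_succ, bnum_swap_mid]
        refine eq_case0 (all_app (all_rp hH i) (all_rp M.nef_H j)) hH (bnum_pos (by simpa using h3)
          (all_con ⟨hH, hb⟩ (all_con ⟨hH, hb⟩
            (all_app (all_rp ⟨hH, hb⟩ i) (all_rp ⟨M.nef_H, M.big_H⟩ j))))) ?_ (h2 _) _
        simpa only [List.replicate_succ, List.cons_append] using ih (i + 1)
      · exact bnum_of_ne (by simpa [add_assoc] using h3)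
  exact eq_zero_of_deg hM h0 fun e => by simpa using key e 0
where bnum_swap_mid : ∀ {a b : BD k F} {l l' : List (BD k F)},
    bnum (a :: (l ++ b :: l')) = bnum (a :: b :: (l ++ l')) :=
  bnum_perm (List.perm_middle.cons _)

/-! ### restriction to prime divisors -/

/-- two different prime divisors are separated by a function -/
theorem exists_sep {M : Mdl k F} {D D' : PDiv M.X} (h : D ≠ D') :
    ∃ f : F, f ≠ 0 ∧ D.v f < 1 ∧ 1 ≤ D'.v f := by
  by_contra! hc
  have h1 : ∀ f, D.v f < 1 → D'.v f < 1 := fun f hf => by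
    by_cases h0 : f = 0
    · simp [h0]
    · exact hc f h0 hf
  refine h (Subtype.ext (val_eq_of_equiv (fun x => ⟨fun hx => ?_, fun hx => ?_⟩) D.2.unif D'.2.unif))
  · by_contra! h2
    obtain ⟨ϖ, hϖ⟩ := D.2.unif
    have h3 : D.v ϖ < 1 := by
      rw [hϖ, ← exp_zero, exp_lt_exp]
      omega
    have h0 : D'.v ϖ ≠ 0 := by
      rw [map_ne_zero, ← map_ne_zero D.v, hϖ]
      exact exp_ne_zero
    have h4 : ∀ n : ℕ, D'.v ϖ * D'.v x ^ n < 1 := fun n => by
      rw [← map_pow, ← map_mul]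
      refine h1 _ ?_
      rw [map_mul, map_pow]
      exact (mul_le_of_le_one_right' (pow_le_one' hx n)).trans_lt h3
    have h5 := h4 (log (D'.v ϖ)).natAbs
    rw [← exp_log h0, ← exp_log (zero_lt_one.trans h2).ne', ← exp_nsmul, ← exp_add, ← exp_zero,
      exp_lt_exp, log_exp, nsmul_eq_mul] at h5
    rw [← exp_log (zero_lt_one.trans h2).ne', ← exp_zero, exp_lt_exp] at h2
    have h6 := neg_abs_le (log (D'.v ϖ))
    rw [Int.natCast_natAbs] at h5
    nlinarith [abs_nonneg (log (D'.v ϖ))]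
  · by_contra! h2
    have h3 := h1 x⁻¹ (by rw [map_inv₀]; exact inv_lt_one_of_one_lt₀ h2)
    have h0 : x ≠ 0 := fun h0 => by simp [h0] at h2
    rw [map_inv₀, inv_lt_one₀ (by simpa [zero_lt_iff] using h0)] at h3
    exact h3.not_ge hx

/-- an effective b-divisor whose only component on the model is `D` -/
theorem exists_prime_bd {M : Mdl k F} (D : PDiv M.X) : ∃ η : BD k F, 0 ≤ η ∧ 1 < η.val (rzD D) ∧
    ∀ D' : PDiv M.X, D' ≠ D → η.val (rzD D') = 1 := by
  classical
  have e1 : ∀ (D : PDiv M.X) {f : F}, f ≠ 0 →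
      ((-pr k f) ⊔ 0).val (rzD D) = max ((rzD D).v f)⁻¹ 1 := fun D f hf => by
    rw [val_sup, val_neg, val_pr hf, val_zero]
  have e2 : ∀ {f : F}, f ≠ 0 → D.v f < 1 → 1 < ((-pr k f) ⊔ 0).val (rzD D) := fun hf h => by
    rw [e1 D hf]
    exact lt_max_of_lt_left ((one_lt_inv₀ (RZ.pos hf)).2 (vs_lt_one.2 h))
  obtain ⟨ϖ, hϖ⟩ := D.2.unif
  have h0 : ϖ ≠ 0 := by
    rw [← map_ne_zero D.v, hϖ]
    exact exp_ne_zero
  have h3 : D.v ϖ < 1 := by
    rw [hϖ, ← exp_zero, exp_lt_exp]
    omega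
  have key : ∀ T : Finset (PDiv M.X), ∃ η : BD k F, 0 ≤ η ∧ η ≤ (-pr k ϖ) ⊔ 0 ∧
      1 < η.val (rzD D) ∧ ∀ D' ∈ T, D' ≠ D → η.val (rzD D') = 1 := by
    intro T
    induction T using Finset.induction_on with
    | empty => exact ⟨_, le_sup_right, le_rfl, e2 h0 h3, by simp⟩
    | insert E T _ ih =>
      obtain ⟨η, h1, h2, h4, h5⟩ := ih
      by_cases hE : E = D
      · exact ⟨η, h1, h2, h4, fun D' h6 h7 =>
          h5 D' ((Finset.mem_insert.1 h6).resolve_left (hE ▸ h7)) h7⟩
      obtain ⟨f, hf, h6, h7⟩ := exists_sep (Ne.symm hE)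
      have h8 : 0 ≤ η ⊓ ((-pr k f) ⊔ 0) := le_inf h1 le_sup_right
      refine ⟨_, h8, inf_le_left.trans h2, by rw [val_inf]; exact lt_min h4 (e2 hf h6),
        fun D' h9 h10 => le_antisymm ?_ (h8 _)⟩
      rw [val_inf]
      rcases Finset.mem_insert.1 h9 with rfl | h9
      · refine min_le_of_right_le ?_
        rw [e1 _ hf]
        refine max_le ((inv_le_one₀ (RZ.pos hf)).2 ?_) le_rfl
        rw [← map_one (rzD D').v]
        exact vs_le.2 (by rwa [map_one])
      · exact min_le_of_left_le (h5 D' h9 h10).le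
  obtain ⟨η, h1, h2, h4, h5⟩ := key (finite_ordD (M.pr_mem ϖ)).toFinset
  refine ⟨η, h1, h4, fun D' h6 => ?_⟩
  by_cases h7 : ordD D' (pr k ϖ) = 0
  · refine le_antisymm ((h2 _).trans ?_) (h1 _)
    rw [val_sup, val_neg, (ordD_eq_zero_iff D').1 h7, inv_one, val_zero, max_self]
  · exact h5 D' (by simpa using h7) h6

/-- a numerically trivial class has degree zero on every prime divisor -/
theorem dg_eq_zero {M : Mdl k F} (hd : dim k F = d + 1) (hz : NumZ z) (hM : z ∈ M.On)
    (hl : ∀ x ∈ l, x ∈ M.On) (D : PDiv M.X) : dg D (z :: l) = 0 := by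
  classical
  by_cases hlen : l.length + 1 = d
  swap
  · exact bnum_of_ne (by rwa [List.length_map, dim_Rf hd])
  obtain ⟨η, h1, h2, h3⟩ := exists_prime_bd D
  obtain ⟨h, -, h4⟩ := exists_pdiv_pl (lnr_plV (rzD D)) (surj_plV _) (by rw [dim_Rf hd, hd])
  obtain ⟨N, h5, h6⟩ := M.exists_ge_list [η, h]
  obtain ⟨D0, hD0⟩ := h4 N (h6 h (by simp))
  have h7 : ∀ x ∈ z :: l, x ∈ N.On := List.forall_mem_cons.2 ⟨h5 hM, fun x hx => h5 (hl x hx)⟩
  have h8 := hz (η :: l)
  rw [bnum_swap, bnum_cyc hd (h6 η (by simp)) h7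
    (T := (finite_ordD (h6 η (by simp))).toFinset) fun E hE => by simpa using hE,
    Finset.sum_eq_single D0] at h8
  · rw [dg_eq_pl hd D0 (lnr_plV (rzD D)) hD0.symm (surj_plV _) h7] at h8
    refine (mul_eq_zero.1 h8).resolve_left fun h9 => h2.ne' ?_
    have h10 := (ordD_eq_zero_iff D0).1 h9
    rw [hD0] at h10
    exact h10
  · intro E hE h9
    have h10 := lt_of_ordD h1 (show ordD E η ≠ 0 by simpa using hE)
    refine mul_eq_zero_of_right _ ?_
    have h11 : bnum (replicate d ((plV (rzD E)).rs M.H)) = 0 := by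
      by_contra h11
      obtain ⟨E', hE'⟩ := exists_pdiv_of_ne hd (dim_Rf hd E) (ne_top_of_lt h10) h11
      by_cases h12 : E' = D
      · refine h9 (Subtype.ext (val_eq_of_equiv (fun x => ?_) E.2.unif D0.2.unif))
        have h13 : x ∈ (rzD E).1 ↔ x ∈ (rzD D0).1 := by rw [← hE', hD0, h12]; rfl
        exact h13
      · exact h10.ne' (hE' ▸ h3 E' h12)
    have h12 := null_of_bd (M.nef_H.rs (plV (rzD E))) ((z :: l).map (plV (rzD E)).rs)
      (List.forall_mem_map.2 (List.forall_mem_cons.2 ⟨(bd_of_car (car_mdl.2 hM)).rs _,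
        fun x hx => (bd_of_car (car_mdl.2 (hl x hx))).rs _⟩)) [] (by simp) (by simpa [hlen] using h11)
    exact h12
  · intro h9
    rw [show ordD D0 η = 0 by simpa using h9, zero_mul]

/-- numerical triviality passes to the prime divisors of a model -/
theorem numZ_rs_pdiv {M : Mdl k F} (hz : NumZ z) (hM : z ∈ M.On) (D : PDiv M.X) :
    NumZ ((plV (rzD D)).rs z) := by
  classical
  obtain ⟨ϖ, hϖ⟩ := D.2.unif
  have h0 : ϖ ≠ 0 := by
    rw [← map_ne_zero D.v, hϖ]
    exact exp_ne_zero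
  have h3 : (rzD D).v ϖ < 1 := vs_lt_one.2 (by
    rw [hϖ, ← exp_zero, exp_lt_exp]
    omega)
  obtain ⟨d, hd⟩ := exists_dim (V := rzD D) fun h => h3.ne (by
    rw [show rzD D = RZ.top k F from Subtype.ext h]
    exact RZ.v_top h0)
  have hp : ∀ E : PDiv M.X, 0 < bnum (replicate d ((plV (rzD E)).rs M.H)) := fun E => by
    simpa only [dg, List.map_replicate] using dg_H_pos hd E
  have h1 : ∀ (E : PDiv M.X) e, bnum ((plV (rzD E)).rs z :: replicate e ((plV (rzD E)).rs M.H)) = 0 :=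
    fun E e => by
      simpa only [dg, List.map_cons, List.map_replicate] using
        dg_eq_zero hd hz hM (all_rp M.H_mem e) E
  refine numZ_of_hodge (M.nef_H.rs _) ((M.nef_H.rs _).big_iff.2 (by rw [dim_Rf hd]; exact hp D))
    ((bd_of_car (car_mdl.2 hM)).rs _) (h1 D) fun e => ?_
  simpa only [dg, List.map_cons, List.map_replicate] using
    dg_eq_zero hd hz hM (all_con hM (all_rp M.H_mem e)) D

theorem car_oP {F : Type} [Field F] [Algebra ℂ F] {P : Lef.PModel ℂ F} {z : BD ℂ F}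
    (hz : z ∈ Br.On P) : Car (Br.oP P) z := by
  obtain ⟨m, h1⟩ := Br.serre hz
  obtain ⟨n, h2⟩ := Br.serre (neg_mem hz)
  exact car_of Br.free_oP (add_comm z _ ▸ h1 m le_rfl) (neg_add_eq_sub z _ ▸ h2 n le_rfl)

theorem big_oP {F : Type} [Field F] [Algebra ℂ F] [Algebra.EssFiniteType ℂ F]
    (P : Lef.PModel ℂ F) : Big (Br.oP P) := by
  refine (va_mxf ⟨fun x => ?_⟩).big
  have h1 : ∀ a ∈ P.A 0, a ∈ qf ℂ P.y := fun a ha =>
    (Algebra.adjoin_le (S := (qf ℂ P.y).toSubalgebra) (by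
      rintro _ ⟨j, rfl⟩
      exact div_mem_qf P.y 0 j)) ha
  obtain ⟨a, ha, c, hc, -, rfl⟩ := P.frac x
  exact isAlgebraic_algebraMap (⟨_, div_mem (h1 a ha) (h1 c hc)⟩ : qf ℂ P.y)

/-! ### Kleiman -/

theorem nef_aux {k : Type} [Field k] [CharZero k] : ∀ (n : ℕ) (F : Type) [Field F] [Algebra k F]
    [Algebra.EssFiniteType k F], dim k F = n → ∀ z : BD k F, NumZ z → Nef z := by
  intro n
  induction n using Nat.strong_induction_on with
  | _ n ih =>
    intro F _ _ _ hn z hz
    obtain ⟨M, hM⟩ := exists_mdl1 z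
    refine (nef_iff (a := ⟨z, hM⟩)).1 (G2.nef_iff.2 fun Z hZ => ?_)
    by_cases h : (top M.X).Sub Z
    · rw [G2H.num_of_sub (sub_top Z) h]
      have h1 := G2H.dimLT_sub h hZ
      by_cases h2 : dim k F = 1
      · exact ((hz []).symm.trans (bnum_eq M (L := [⟨z, hM⟩]) h2.symm)).le
      · refine (num_of_dimLT (d := 1) ((dimLT_n _).mono ?_) le_rfl).ge
        by_contra h3
        exact M.dim_top.2 (h1.mono (by omega))
    · obtain ⟨D, hD⟩ := G2H.exists_pdiv_sup (S := M.S) (nrm M) h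
      obtain ⟨d, hd⟩ : ∃ d, dim k F = d + 1 := Nat.exists_eq_succ_of_ne_zero fun h0 =>
        h (G2H.sub_of_dim (S := M.S) (sub_top Z) Z.not_dimLT_zero ((dimLT_n _).mono (by omega)))
      have h1 := ih d (by omega) _ (dim_Rf hd D) _ (numZ_rs_pdiv hz hM D)
      obtain ⟨ι, hι⟩ := exists_domD D (lnr_plV (rzD D)) rfl
      have h2 := T0a.nf_down ι ((hι.lin_rs (S := M.S) ⟨z, hM⟩).symm.nef (by rwa [toBD_mdl]))
      exact G2H.Rs.nef_iff_curves.1 (nef_toBD_iff.1 h2) Z hD hZ

/-- **numerically trivial classes are nef** -/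
theorem nef_of_numZ {k F : Type} [Field k] [CharZero k] [Field F] [Algebra k F]
    [Algebra.EssFiniteType k F] {z : BD k F} (hz : NumZ z) : Nef z := nef_aux _ F rfl z hz

/-- numerical triviality passes to all places -/
theorem numZ_rs {k F E : Type} [Field k] [CharZero k] [Field F] [Algebra k F]
    [Algebra.EssFiniteType k F] [Field E] [Algebra k E] [Algebra.EssFiniteType k E] {z : BD k F}
    (hz : NumZ z) (p : Pl k F k E) : NumZ (p.rs z) :=
  numZ_of_nef_neg ((nef_of_numZ hz).rs p) ((lin_rs_neg p z).symm.nef ((nef_of_numZ hz.neg).rs p))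

/-- numerical triviality can be tested on a smooth model -/
theorem numZ_of_on {F : Type} [Field F] [Algebra ℂ F] [Algebra.EssFiniteType ℂ F]
    {P : Lef.PModel ℂ F} {z : BD ℂ F} (hz : z ∈ Br.On P)
    (h1 : ∀ e, bnum (z :: replicate e (Br.oP P)) = 0)
    (h2 : ∀ e, bnum (z :: z :: replicate e (Br.oP P)) = 0) : NumZ z :=
  numZ_of_hodge Br.free_oP.nef (big_oP P) (bd_of_car (car_oP hz)) h1 h2

/-- `NZStmt` of the non-vanishing package -/
theorem nef_of_on {F : Type} [Field F] [Algebra ℂ F] [Algebra.EssFiniteType ℂ F]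
    {P : Lef.PModel ℂ F} {z : BD ℂ F} (hz : z ∈ Br.On P)
    (h : ∀ l : List (BD ℂ F), (∀ x ∈ l, x ∈ Br.On P) → bnum (z :: l) = 0) : Nef z :=
  nef_of_numZ (numZ_of_on hz (fun e => h _ (all_rp Br.oP_mem e))
    fun e => h _ (all_con hz (all_rp Br.oP_mem e)))

end Crest.Agent.X262.Rho82
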