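import Crest.Agent.X262.Rho82.Nef
import Crest.Agent.X262.FG.NvDefs

/-!
# Row 262, RHO (helper82): the statement `NZStmt` of the non-vanishing package
-/

set_option autoImplicit false

namespace Crest.Agent.X262.Rho82

theorem nzStmt : FG.NZStmt := fun _ _ _ _ _ _ hz h => nef_of_on hz h

end Crest.Agent.X262.Rho82
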