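import Crest.Agent.X262.Brg.Cubic
import Crest.Agent.X277.BD.Mdl

/-!
# Row 262, RHO (helper82), part 2: polynomial algebra

* `trdeg_drop`, `trdeg_qf_le` : forms without common factor cut out a locus of codimension two;
* `not_sm`                    : `A B + C D` is singular;
* `exists_cone`               : the cone of lines through a point of a smooth cubic fourfold.
-/

set_option autoImplicit false

noncomputable section

namespace Crest.Agent.X262.Rho82

open MvPolynomial Crest.Agent.X262.Brg.Cubic Crest.Agent.X277.BD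

/-! ### codimension two -/

theorem trdeg_drop {A B : Type} [CommRing A] [IsDomain A] [Algebra ℂ A] [Algebra.FiniteType ℂ A]
    [CommRing B] [IsDomain B] [Algebra ℂ B] (f : A →ₐ[ℂ] B) (hf : Function.Surjective f) {x : A}
    (hx : x ≠ 0) (h : f x = 0) : Algebra.trdeg ℂ B + 1 ≤ Algebra.trdeg ℂ A := by
  have : Algebra.FiniteType ℂ B := Algebra.FiniteType.of_surjective f hf
  obtain ⟨a, h1, h2⟩ := dim_trdeg ℂ A
  obtain ⟨b, h3, h4⟩ := dim_trdeg ℂ B
  have h5 := ringKrullDim_quotient_succ_le_of_nonZeroDivisor (mem_nonZeroDivisors_of_ne_zero hx)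
  have h6 := ringKrullDim_le_of_surjective (Ideal.Quotient.lift (Ideal.span {x}) (f : A →+* B)
    fun y hy => by
      obtain ⟨c, rfl⟩ := Ideal.mem_span_singleton'.1 hy
      simp [h]) (Ideal.Quotient.lift_surjective_of_surjective _ _ hf)
  have h7 : ((b + 1 : ℕ) : WithBot ℕ∞) ≤ a := by
    rw [← h1]
    refine le_trans ?_ h5
    push_cast
    rw [← h3]
    gcongr
  rw [h2, h4]
  exact_mod_cast h7

theorem exists_prime_ker' {R B : Type*} [CommRing R] [IsDomain R] [UniqueFactorizationMonoid R]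
    [CommRing B] [IsDomain B] (χ : R →+* B) {a : R} (h0 : a ≠ 0) (h : χ a = 0) :
    ∃ π : R, Prime π ∧ π ∣ a ∧ χ π = 0 := by
  induction a using UniqueFactorizationMonoid.induction_on_prime with
  | h₁ => exact absurd rfl h0
  | h₂ u hu => exact absurd h (hu.map χ).ne_zero
  | h₃ a π ha hπ ih =>
    rw [map_mul, mul_eq_zero] at h
    rcases h with h | h
    · exact ⟨π, hπ, dvd_mul_right _ _, h⟩
    · obtain ⟨π', h1, h2, h3⟩ := ih ha h
      exact ⟨π', h1, h2.mul_left _, h3⟩

theorem aeval_hom {σ B : Type*} [CommRing B] [Algebra ℂ B] {p : MvPolynomial σ ℂ} {d : ℕ}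
    (h : p.IsHomogeneous d) (c : B) (v : σ → B) :
    aeval (fun j => c * v j) p = c ^ d * aeval v p := by
  rw [aeval_def, aeval_def, eval₂_eq, eval₂_eq, Finset.mul_sum]
  refine Finset.sum_congr rfl fun m hm => ?_
  simp only [mul_pow, Finset.prod_mul_distrib, Finset.prod_pow_eq_pow_sum]
  rw [← h.degree_eq_sum_deg_support hm]
  ring

theorem aeval_div {σ B : Type*} [Field B] [Algebra ℂ B] {p : MvPolynomial σ ℂ} {d : ℕ}
    (h : p.IsHomogeneous d) (c : B) (v : σ → B) :
    aeval (fun j => v j / c) p = aeval v p / c ^ d := by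
  simpa only [div_eq_inv_mul, inv_pow] using aeval_hom h c⁻¹ v

variable {n : ℕ} {ι : Type*} {E : Type} [Field E] [Algebra ℂ E]

/-- the forms `P i` have no common factor -/
def NoCF (P : ι → MvPolynomial (Fin n) ℂ) (d : ι → ℕ) (e : ℕ) : Prop :=
  ∀ (a : ℕ) (π : MvPolynomial (Fin n) ℂ), π.IsHomogeneous a → a ≠ 0 → a ≤ e →
    ¬ ∀ i, ∃ Q : MvPolynomial (Fin n) ℂ, Q.IsHomogeneous (d i - a) ∧ P i = π * Q

open scoped IntermediateField.algebraAdjoinAdjoin in
theorem trdeg_qf_le0 {P : ι → MvPolynomial (Fin (n + 1)) ℂ} {d : ι → ℕ}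
    (hP : ∀ i, (P i).IsHomogeneous (d i)) {i0 : ι} (h0 : P i0 ≠ 0) (hc : NoCF P d (d i0))
    {w : Fin (n + 1) → E} (hw : w 0 ≠ 0) (h : ∀ i, aeval w (P i) = 0) :
    Algebra.trdeg ℂ (qf ℂ w) + 2 ≤ n := by
  let u : Fin n → E := fun i => w i.succ / w 0
  have h1 : ∀ i, aeval u (deh (P i)) = 0 := fun i => by
    have h2 : (aeval u).comp (deh (k := ℂ) (n := n)) = aeval fun j => w j / w 0 := by
      ext1 j
      refine Fin.cases ?_ (fun j => ?_) j <;> simp [deh, u, hw]
    rw [← AlgHom.comp_apply, h2, aeval_div (hP i), h, zero_div]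
  have h2 : ∀ i, deh (P i) = 0 → P i = 0 := fun i h2 =>
    eq_of_deh (hP i) (isHomogeneous_zero _ _ _) (by rw [h2, map_zero])
  obtain ⟨π, hπ, h3, h4⟩ := exists_prime_ker' (aeval u : _ →ₐ[ℂ] E).toRingHom (mt (h2 i0) h0) (h1 i0)
  have h5 : ∀ i, P i ≠ 0 → ∀ Q, deh (P i) = π * Q → π.totalDegree + Q.totalDegree ≤ d i := by
    intro i hi Q hQ
    rw [← totalDegree_mul_of_isDomain hπ.ne_zero fun h5 => hi (h2 i (by rw [hQ, h5, mul_zero])),
      ← hQ]
    exact (totalDegree_deh _).trans (hP i).totalDegree_le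
  obtain ⟨i, hi⟩ : ∃ i, ¬ π ∣ deh (P i) := by
    by_contra! h6
    refine hc π.totalDegree (hom π.totalDegree π) (hom_isHomogeneous _ _) (fun h7 => ?_)
      (by obtain ⟨Q, hQ⟩ := h3; have := h5 i0 h0 Q hQ; omega) fun i => ?_
    · rw [totalDegree_eq_zero_iff_eq_C] at h7
      rw [h7] at hπ
      exact hπ.not_isUnit ((Ne.isUnit fun h => hπ.ne_zero (by rw [h, C_0])).map C)
    · by_cases h7 : P i = 0
      · exact ⟨0, isHomogeneous_zero _ _ _, by rw [h7, mul_zero]⟩
      obtain ⟨Q, hQ⟩ := h6 i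
      have h8 := h5 i h7 Q hQ
      refine ⟨hom _ Q, hom_isHomogeneous _ _, eq_of_deh (hP i) ?_ ?_⟩
      · have h9 := (hom_isHomogeneous π.totalDegree π).mul
          (hom_isHomogeneous (d i - π.totalDegree) Q)
        rwa [Nat.add_sub_cancel' (by omega)] at h9
      · rw [map_mul, deh_hom le_rfl, deh_hom (by omega), hQ]
  have : (Ideal.span {π}).IsPrime := (Ideal.span_singleton_prime hπ.ne_zero).2 hπ
  let f : MvPolynomial (Fin n) ℂ →ₐ[ℂ] (aeval u).range := (aeval u).rangeRestrict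
  have h6 := trdeg_drop (Ideal.Quotient.mkₐ ℂ (Ideal.span {π})) (Ideal.Quotient.mkₐ_surjective _ _)
    hπ.ne_zero (Ideal.Quotient.eq_zero_iff_mem.2 (Ideal.mem_span_singleton_self π))
  have h7 := trdeg_drop (Ideal.Quotient.liftₐ (Ideal.span {π}) f fun y hy => by
      obtain ⟨c, rfl⟩ := Ideal.mem_span_singleton'.1 hy
      refine Subtype.ext ?_
      change aeval u (c * π) = 0
      rw [map_mul, show aeval u π = 0 from h4, mul_zero])
    (fun y => by
      obtain ⟨x, rfl⟩ := (aeval u).rangeRestrict_surjective y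
      exact ⟨Ideal.Quotient.mk _ x, rfl⟩) (x := Ideal.Quotient.mk _ (deh (P i)))
    (fun h7 => hi (Ideal.mem_span_singleton.1 (Ideal.Quotient.eq_zero_iff_mem.1 h7)))
    (Subtype.ext (h1 i))
  have h8 : qf ℂ w = IntermediateField.adjoin ℂ (Set.range u) := by
    refine le_antisymm (IntermediateField.adjoin_le_iff.2 ?_) (IntermediateField.adjoin_le_iff.2 ?_)
    · have h8 : ∀ j, w j / w 0 ∈ IntermediateField.adjoin ℂ (Set.range u) := fun j =>
        Fin.cases (by rw [div_self hw]; exact one_mem _)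
          (fun j => IntermediateField.subset_adjoin _ _ ⟨j, rfl⟩) j
      rintro _ ⟨i, j, rfl⟩
      rw [← div_div_div_cancel_right₀ hw]
      exact div_mem (h8 j) (h8 i)
    · rintro _ ⟨j, rfl⟩
      exact div_mem_qf w 0 j.succ
  rw [h8, trdeg_frac ℂ (Algebra.adjoin ℂ (Set.range u)), Algebra.adjoin_range_eq_range_aeval]
  rw [MvPolynomial.trdeg_of_isDomain] at h6
  calc _ = Algebra.trdeg ℂ (aeval u).range + 1 + 1 := by rw [add_assoc, one_add_one_eq_two]
    _ ≤ _ := by gcongr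
    _ ≤ _ := h6
    _ = _ := by simp

/-- **forms without common factor cut out a locus of codimension at least two** -/
theorem trdeg_qf_le {P : ι → MvPolynomial (Fin (n + 1)) ℂ} {d : ι → ℕ}
    (hP : ∀ i, (P i).IsHomogeneous (d i)) {i0 : ι} (h0 : P i0 ≠ 0) (hc : NoCF P d (d i0))
    {w : Fin (n + 1) → E} (hw : ∃ j, w j ≠ 0) (h : ∀ i, aeval w (P i) = 0) :
    Algebra.trdeg ℂ (qf ℂ w) + 2 ≤ n := by
  obtain ⟨j, hj⟩ := hw
  let σ := Equiv.swap 0 j
  have h1 : ∀ p : MvPolynomial (Fin (n + 1)) ℂ, rename σ (rename σ p) = p := fun p => by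
    rw [rename_rename, show (σ ∘ σ) = id from funext fun i => Equiv.swap_apply_self _ _ i,
      rename_id_apply]
  have h2 : qf ℂ (w ∘ σ) = qf ℂ w := by
    refine le_antisymm (IntermediateField.adjoin_le_iff.2 ?_) (IntermediateField.adjoin_le_iff.2 ?_)
    · rintro _ ⟨a, b, rfl⟩
      exact div_mem_qf w _ _
    · rintro _ ⟨a, b, rfl⟩
      simpa using div_mem_qf (k := ℂ) (w ∘ σ) (σ.symm a) (σ.symm b)
  rw [← h2]
  refine trdeg_qf_le0 (P := fun i => rename σ (P i)) (fun i => (hP i).rename_isHomogeneous)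
    (i0 := i0) (fun h3 => h0 (by rw [← h1 (P i0), h3, map_zero])) (fun a π h3 h4 h5 h6 => ?_)
    (by simpa [σ] using hj) fun i => ?_
  · refine hc a (rename σ π) h3.rename_isHomogeneous h4 h5 fun i => ?_
    obtain ⟨Q, h7, h8⟩ := h6 i
    exact ⟨rename σ Q, h7.rename_isHomogeneous, by rw [← map_mul, ← h8, h1]⟩
  · rw [aeval_rename, Function.comp_assoc,
      show (σ ∘ σ) = id from funext fun i => Equiv.swap_apply_self _ _ i]
    exact h i

/-! ### singular points -/

theorem eval_zero_hom {σ : Type} {G : MvPolynomial σ ℂ} {a : ℕ} (hG : G.IsHomogeneous a)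
    (ha : a ≠ 0) : eval (0 : σ → ℂ) G = 0 := by
  simpa [ha] using eval_smul hG 0 0

theorem not_sm {A B C D : MvPolynomial (Fin 6) ℂ} (hA : eval 0 A = 0) (hB : eval 0 B = 0)
    (hC : eval 0 C = 0) (hD : eval 0 D = 0) : ¬ Sm (A * B + C * D) := by
  classical
  intro h
  obtain ⟨q, hq, h1⟩ := exists_common_zero {A, B, C, D}
    (Finset.card_le_four.trans_lt (by norm_num)) 0 (by
      simp only [Finset.mem_insert, Finset.mem_singleton, forall_eq_or_imp, forall_eq]
      exact ⟨hA, hB, hC, hD⟩)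
  simp only [Finset.mem_insert, Finset.mem_singleton, forall_eq_or_imp, forall_eq] at h1
  obtain ⟨h2, h3, h4, h5⟩ := h1
  obtain ⟨i, hi⟩ := h q hq (by simp [h2, h4])
  exact hi (by simp [h2, h3, h4, h5])

theorem linear_eq {σ : Type} [Fintype σ] {l : MvPolynomial σ ℂ} (hl : l.IsHomogeneous 1) :
    l = ∑ i, C (eval 0 (pderiv i l)) * X i := by
  conv_lhs => rw [← one_smul ℕ l, ← hl.sum_X_mul_pderiv]
  refine Finset.sum_congr rfl fun i _ => ?_
  have h1 := totalDegree_eq_zero_iff_eq_C.1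
    ((totalDegree_zero_iff_isHomogeneous σ).2 (hl.pderiv (i := i)))
  rw [mul_comm, h1, eval_C]

theorem eval_zero_of_mul {σ : Type} [Fintype σ] {l B : MvPolynomial σ ℂ} (hl : l.IsHomogeneous 1)
    (h0 : l ≠ 0) (h : (l * B).IsHomogeneous 3) : eval 0 B = 0 := by
  by_contra h1
  refine h0 ((linear_eq hl).trans (Finset.sum_eq_zero fun i _ => ?_))
  have h2 := eval_zero_hom (h.pderiv (i := i)) (by norm_num)
  rw [Derivation.leibniz, map_add, smul_eq_mul, smul_eq_mul, map_mul, map_mul,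
    eval_zero_hom hl one_ne_zero, zero_mul, zero_add] at h2
  rw [(mul_eq_zero.1 h2).resolve_left h1, C_0, zero_mul]

/-- a form of degree at least two in functions which vanish at `p` is singular at `p` -/
theorem pderiv_aeval_zero {σ τ : Type} [Fintype τ] {W : τ → MvPolynomial σ ℂ} {p : σ → ℂ}
    (hW : ∀ j, eval p (W j) = 0) {f : MvPolynomial τ ℂ} {d : ℕ} (hf : f.IsHomogeneous (d + 2))
    (i : σ) : eval p (aeval W f) = 0 ∧ eval p (pderiv i (aeval W f)) = 0 := by
  have h1 : ∀ {g : MvPolynomial τ ℂ} {a : ℕ}, g.IsHomogeneous a → a ≠ 0 →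
      eval p (aeval W g) = 0 := fun {g a} hg ha => by
    have h1 : (aeval p).comp (aeval W) = aeval (R := ℂ) (0 : τ → ℂ) := by
      ext1 j
      simpa using hW j
    exact (DFunLike.congr_fun h1 g).trans (eval_zero_hom hg ha)
  refine ⟨h1 hf (by omega), ?_⟩
  have h2 := congrArg (fun g => eval p (pderiv i (aeval W g))) hf.sum_X_mul_pderiv
  simp only [map_sum, map_mul, aeval_X, Derivation.leibniz, smul_eq_mul, map_add, hW, zero_mul,
    zero_add, map_nsmul, fun j => h1 (hf.pderiv (i := j)) (by omega), Finset.sum_const_zero] at h2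
  exact (smul_eq_zero.1 h2.symm).resolve_left (by omega)

/-! ### the cone of lines through a point -/

theorem exists_taylor {G : MvPolynomial (Fin 6) ℂ} (hG : G.IsHomogeneous 3) {p : Fin 6 → ℂ}
    (h0 : p 0 = 1) (hp : eval p G = 0) : ∃ l q c : MvPolynomial (Fin 5) ℂ, l.IsHomogeneous 1 ∧
      q.IsHomogeneous 2 ∧ c.IsHomogeneous 3 ∧
      G = X 0 ^ 2 * aeval (fun j : Fin 5 => X j.succ - C (p j.succ) * X 0) l +
        X 0 * aeval (fun j : Fin 5 => X j.succ - C (p j.succ) * X 0) q +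
        aeval (fun j : Fin 5 => X j.succ - C (p j.succ) * X 0) c := by
  set W : Fin 5 → MvPolynomial (Fin 6) ℂ := fun j => X j.succ - C (p j.succ) * X 0 with hW
  let sh : Fin 6 → MvPolynomial (Fin 6) ℂ :=
    Fin.cons (X 0) fun j => X j.succ + C (p j.succ) * X 0
  let un : MvPolynomial (Fin 6) ℂ →ₐ[ℂ] MvPolynomial (Fin 6) ℂ := aeval (Fin.cons (X 0) W)
  have h1 : un (aeval sh G) = G := by
    have h1 : un.comp (aeval sh) = AlgHom.id ℂ _ := by
      ext1 j
      refine Fin.cases ?_ (fun j => ?_) j <;> simp [un, sh, W]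
    exact DFunLike.congr_fun h1 G
  have h2 : (aeval sh G).IsHomogeneous 3 := by
    refine hG.aeval (n := 1) sh fun j => Fin.cases (isHomogeneous_X _ _) (fun j => ?_) j
    exact (isHomogeneous_X _ _).add (isHomogeneous_C_mul_X _ _)
  have h3 := eq_of_deh h2 (hom_isHomogeneous 3 (deh (aeval sh G)))
    (deh_hom ((totalDegree_deh _).trans h2.totalDegree_le)).symm
  have h4 : coeff 0 (deh (aeval sh G)) = 0 := by
    have h4 : (aeval (Fin.cons 1 0 : Fin 6 → ℂ)).comp (aeval sh) = aeval (R := ℂ) p := by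
      ext1 j
      refine Fin.cases ?_ (fun j => ?_) j <;> simp [sh, h0]
    rw [← constantCoeff_eq, ← eval_zero, eval_deh]
    exact (DFunLike.congr_fun h4 G).trans hp
  have h5 : ∀ g, un (rename Fin.succ g) = aeval W g := fun g => by
    simp only [un, aeval_rename]
    rfl
  refine ⟨_, _, _, homogeneousComponent_isHomogeneous 1 (deh (aeval sh G)),
    homogeneousComponent_isHomogeneous 2 (deh (aeval sh G)),
    homogeneousComponent_isHomogeneous 3 (deh (aeval sh G)), ?_⟩
  have h6 : un (X 0) = X 0 := by simp [un]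
  conv_lhs => rw [← h1, h3, hom]
  simp only [Finset.sum_range_succ, Finset.sum_range_zero, homogeneousComponent_zero, h4, map_add,
    map_mul, map_pow, h5, h6, map_zero]
  ring

/-- **the lines through a point of a smooth cubic fourfold**: the tangent hyperplane `L`, the
projection `Z` from the point inside `L`, and an equation `r` of the cone of lines -/
theorem exists_cone {G : MvPolynomial (Fin 6) ℂ} (hG : G.IsHomogeneous 3) (hs : Sm G)
    {p : Fin 6 → ℂ} (h0 : p 0 = 1) (hp : eval p G = 0) :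
    ∃ (L : MvPolynomial (Fin 6) ℂ) (Z : Fin 4 → MvPolynomial (Fin 6) ℂ)
      (r : MvPolynomial (Fin 4) ℂ) (k : ℕ), L.IsHomogeneous 1 ∧ L ≠ 0 ∧
      (∀ m, (Z m).IsHomogeneous 1) ∧
      (∀ i, X i ∈ Submodule.span ℂ (insert L (insert (X 0) (Set.range Z)))) ∧
      k ≠ 0 ∧ r.IsHomogeneous k ∧ ∀ (E : Type) [Field E] [Algebra ℂ E] (y : Fin 6 → E),
        aeval y G = 0 → aeval y L = 0 → aeval (fun m => aeval y (Z m)) r = 0 →
        (∃ m, aeval y (Z m) ≠ 0) → Algebra.trdeg ℂ (qf ℂ fun m => aeval y (Z m)) ≤ 1 := by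
  obtain ⟨l, q, c, hl, hq, hc, hG'⟩ := exists_taylor hG h0 hp
  set W : Fin 5 → MvPolynomial (Fin 6) ℂ := fun j => X j.succ - C (p j.succ) * X 0 with hW
  have hW1 : ∀ j, (W j).IsHomogeneous 1 := fun j =>
    (isHomogeneous_X _ _).sub (isHomogeneous_C_mul_X _ _)
  have hWp : ∀ j, eval p (W j) = 0 := fun j => by simp [W, h0]
  set a : Fin 5 → ℂ := fun j => eval 0 (pderiv j l) with ha
  have hl' : l = ∑ j, C (a j) * X j := linear_eq hl
  obtain ⟨j0, hj0⟩ : ∃ j, a j ≠ 0 := by
    by_contra! h1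
    obtain ⟨i, hi⟩ := hs p (fun h => by simp [h] at h0) hp
    have h2 := pderiv_aeval_zero hWp (d := 0) hq i
    have h3 := pderiv_aeval_zero hWp (d := 1) hc i
    refine hi ?_
    have h4 : l = 0 := hl'.trans (by simp [h1])
    rw [hG', h4]
    simp only [map_zero, mul_zero, zero_add, map_add, Derivation.leibniz, smul_eq_mul, map_mul,
      h2.1, h2.2, h3.2, zero_mul]
  let Z : Fin 4 → MvPolynomial (Fin 6) ℂ := fun m => W (j0.succAbove m)
  let ψ : Fin 5 → MvPolynomial (Fin 4) ℂ :=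
    j0.insertNth (-∑ m, C (a (j0.succAbove m) / a j0) * X m) X
  have hψ : ∀ j, (ψ j).IsHomogeneous 1 := fun j => by
    refine Fin.succAboveCases j0 ?_ (fun m => ?_) j
    · simp only [ψ, Fin.insertNth_apply_same]
      exact (IsHomogeneous.sum _ _ _ fun m _ => isHomogeneous_C_mul_X _ _).neg
    · simp only [ψ, Fin.insertNth_apply_succAbove]
      exact isHomogeneous_X _ _
  set L := aeval W l with hL
  have hL1 : L.IsHomogeneous 1 := hl.aeval (n := 1) W hW1
  have hL2 : W j0 = C (a j0)⁻¹ * L - ∑ m, C (a (j0.succAbove m) / a j0) * Z m := by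
    rw [hL, hl', map_sum, Fin.sum_univ_succAbove _ j0]
    simp only [map_mul (aeval W), aeval_X, algHom_C, algebraMap_eq, mul_add, Finset.mul_sum,
      ← mul_assoc, ← C_mul, inv_mul_cancel₀ hj0, C_1, one_mul, div_eq_inv_mul, Z,
      add_sub_cancel_right]
  have hL0 : L ≠ 0 := fun h => by
    have h1 := congrArg (eval (Pi.single j0.succ 1 : Fin 6 → ℂ)) hL2
    simp [h, Z, W, (Fin.succ_ne_zero _).symm] at h1
  have hd : ∀ f, L ∣ aeval W f - aeval Z (aeval ψ f) := fun f => by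
    have h1 : (Ideal.Quotient.mkₐ ℂ (Ideal.span {L})).comp (aeval W) =
        ((Ideal.Quotient.mkₐ ℂ (Ideal.span {L})).comp (aeval Z)).comp (aeval ψ) := by
      ext1 j
      simp only [AlgHom.comp_apply, aeval_X, Ideal.Quotient.mkₐ_eq_mk, Ideal.Quotient.eq,
        Ideal.mem_span_singleton]
      refine Fin.succAboveCases j0 ?_ (fun m => ?_) j
      · rw [hL2]
        simp [ψ]
      · simp [ψ, Z]
    exact Ideal.mem_span_singleton.1 (Ideal.Quotient.eq.1 (DFunLike.congr_fun h1 f))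
  have hZ : ∀ m, (Z m).IsHomogeneous 1 := fun m => hW1 _
  set q' := aeval ψ q
  set c' := aeval ψ c
  have hq' : q'.IsHomogeneous 2 := hq.aeval (n := 1) ψ hψ
  have hc' : c'.IsHomogeneous 3 := hc.aeval (n := 1) ψ hψ
  obtain ⟨B, hB⟩ : L ∣ G - (X 0 * aeval Z q' + aeval Z c') := by
    rw [hG', show ∀ x y y' z z' u : MvPolynomial (Fin 6) ℂ, x + u * y + z - (u * y' + z') =
      x + u * (y - y') + (z - z') from fun _ _ _ _ _ _ => by ring]
    exact ((dvd_mul_left _ _).add ((hd q).mul_left _)).add (hd c)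
  have hB0 : eval 0 B = 0 := eval_zero_of_mul hL1 hL0 (hB ▸ hG.sub
    (((isHomogeneous_X _ _).mul (hq'.aeval (n := 1) Z hZ)).add (hc'.aeval (n := 1) Z hZ)))
  have hred : ∀ (e : ℕ) (π Q Q' : MvPolynomial (Fin 4) ℂ), π.IsHomogeneous e → e ≠ 0 → e ≤ 2 →
      Q'.IsHomogeneous (3 - e) → q' = π * Q → c' ≠ π * Q' := by
    intro e π Q Q' h1 h2 h3 h4 h5 h6
    refine not_sm (eval_zero_hom hL1 one_ne_zero) hB0
      (eval_zero_hom (h1.aeval (n := 1) Z hZ) (by omega)) (D := X 0 * aeval Z Q + aeval Z Q') ?_ ?_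
    · rw [map_add, eval_zero_hom (h4.aeval (n := 1) Z hZ) (by omega)]
      simp
    · convert hs using 1
      rw [← hB, h5, h6, map_mul, map_mul]
      ring
  have hsp : ∀ i, X i ∈ Submodule.span ℂ (insert L (insert (X 0) (Set.range Z))) := by
    have h1 : X 0 ∈ Submodule.span ℂ (insert L (insert (X 0) (Set.range Z))) :=
      Submodule.subset_span (by simp)
    have h2 : ∀ m, Z m ∈ Submodule.span ℂ (insert L (insert (X 0) (Set.range Z))) := fun m =>
      Submodule.subset_span (by simp)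
    have h3 : ∀ j, W j ∈ Submodule.span ℂ (insert L (insert (X 0) (Set.range Z))) := fun j => by
      refine Fin.succAboveCases j0 ?_ h2 j
      rw [hL2]
      simp only [C_mul']
      exact sub_mem (Submodule.smul_mem _ _ (Submodule.subset_span (by simp)))
        (sum_mem fun m _ => Submodule.smul_mem _ _ (h2 m))
    refine fun i => Fin.cases h1 (fun j => ?_) i
    have h4 := add_mem (h3 j) (Submodule.smul_mem _ (p j.succ) h1)
    simpa only [W, C_mul', sub_add_cancel] using h4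
  have hev : ∀ (E : Type) [Field E] [Algebra ℂ E] (y : Fin 6 → E), aeval y G = 0 → aeval y L = 0 →
      y 0 * aeval (fun m => aeval y (Z m)) q' + aeval (fun m => aeval y (Z m)) c' = 0 := by
    intro E _ _ y h1 h2
    have h3 := congrArg (aeval y) hB
    have h4 : ∀ f, aeval y (aeval Z f) = aeval (fun m => aeval y (Z m)) f := fun f => by
      rw [← AlgHom.comp_apply, comp_aeval]
    rwa [map_sub, map_mul, h1, h2, zero_mul, zero_sub, neg_eq_zero, map_add, map_mul, aeval_X,
      h4, h4] at h3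
  have key : ∀ (r : MvPolynomial (Fin 4) ℂ) (k : ℕ), r.IsHomogeneous k → r ≠ 0 → k ≤ 2 →
      r ∣ q' → ∀ (E : Type) [Field E] [Algebra ℂ E] (y : Fin 6 → E),
        aeval y G = 0 → aeval y L = 0 → aeval (fun m => aeval y (Z m)) r = 0 →
        (∃ m, aeval y (Z m) ≠ 0) → Algebra.trdeg ℂ (qf ℂ fun m => aeval y (Z m)) ≤ 1 := by
    rintro r k h1 h2 h3 ⟨Q0, h4⟩ E _ _ y h5 h6 h7 h8
    have h9 := hev E y h5 h6
    rw [h4, map_mul, h7, zero_mul, mul_zero, zero_add] at h9
    have h10 := trdeg_qf_le (n := 3) (P := ![r, c']) (d := ![k, 3])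
      (Fin.forall_fin_two.2 ⟨h1, hc'⟩) (i0 := 0) h2 (fun e π h10 h11 h12 h13 => by
        obtain ⟨Q, -, h14⟩ := h13 0
        obtain ⟨Q', h15, h16⟩ := h13 1
        exact hred e π (Q * Q0) Q' h10 h11 (h12.trans h3) h15
          (by rw [h4, show r = π * Q from h14, mul_assoc]) h16) h8
      (Fin.forall_fin_two.2 ⟨h7, h9⟩)
    rw [show ((3 : ℕ) : Cardinal) = 1 + 2 by norm_num] at h10
    exact (Cardinal.add_le_add_iff_of_lt_aleph0 (by simp)).1 h10
  by_cases hq0 : q' = 0
  · exact ⟨L, Z, X 0, 1, hL1, hL0, hZ, hsp, one_ne_zero, isHomogeneous_X _ _,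
      key _ 1 (isHomogeneous_X _ _) (X_ne_zero _) one_le_two (hq0 ▸ dvd_zero _)⟩
  · exact ⟨L, Z, q', 2, hL1, hL0, hZ, hsp, two_ne_zero, hq', key _ 2 hq' hq0 le_rfl dvd_rfl⟩

end Crest.Agent.X262.Rho82
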