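import Crest.Agent.X262.Rho82.Nef
import Crest.Agent.X262.Loc95.Prj

/-!
# Row 262, RHO (helper82), part 4: divisors on a cone over a curve

* `r_aeval`, `lin_rs_mxf`, `exists_const`, `null_two` : residues of finite families;
* `Cn L t z h`, `Cn.nonneg` : on a cone over a curve Cartier divisors have non-negative square.
-/

set_option autoImplicit false
set_option linter.unusedSectionVars false

noncomputable section

namespace Crest.Agent.X262.Rho82

open Crest.Agent.X277 Crest.Agent.X277.BD Crest.Agent.X277.BD.Cyc Polynomial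
open Crest.Agent.R276.DivVal_858
open List (replicate)

variable {F E : Type} [Field F] [Algebra ℂ F] [Field E] [Algebra ℂ E] {p : Pl ℂ F ℂ E}
variable {ι κ : Type} [Fintype ι] [Fintype κ]

/-! ### residues of finite families -/

theorem r_sum {σ : Type*} (S : Finset σ) {f : σ → F} (hf : ∀ i ∈ S, f i ∈ p.V.1) :
    p.r (∑ i ∈ S, f i) = ∑ i ∈ S, p.r (f i) := by
  classical
  induction S using Finset.induction_on with
  | empty => simp
  | insert a S ha ih =>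
    rw [Finset.forall_mem_insert] at hf
    rw [Finset.sum_insert ha, Finset.sum_insert ha, Pl.r_add hf.1 (sum_mem hf.2), ih hf.2]

theorem r_aeval (hp : Lnr p) {σ : Type*} {x : σ → F} (hx : ∀ i, x i ∈ p.V.1)
    (q : MvPolynomial σ ℂ) : MvPolynomial.aeval x q ∈ p.V.1 ∧
      p.r (MvPolynomial.aeval x q) = MvPolynomial.aeval (fun i => p.r (x i)) q := by
  induction q using MvPolynomial.induction_on with
  | C c => simpa only [MvPolynomial.aeval_C] using ⟨p.V.2 c, hp c⟩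
  | add q q' h h' =>
    rw [map_add, map_add, Pl.r_add h.1 h'.1, h.2, h'.2]
    exact ⟨add_mem h.1 h'.1, rfl⟩
  | mul_X q i h =>
    rw [map_mul, map_mul, MvPolynomial.aeval_X, MvPolynomial.aeval_X, Pl.r_mul h.1 (hx i), h.2]
    exact ⟨mul_mem h.1 (hx i), rfl⟩

theorem div_mem_of {a : BD ℂ F} {V : RZ ℂ F} {f g : F} (hg : V.v g = a.val V) (hf : f ∈ a.Sec) :
    f / g ∈ V.1 := (RZ.le_iff (ne_of_val hg)).1 (hg ▸ hf V)

theorem lin_rs_mxf {w : ι → F} (h0 : ∃ i, w i ≠ 0) {g : F} (hg : p.V.v g = (mxf ℂ w).val p.V) :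
    Lin (p.rs (mxf ℂ w)) (mxf ℂ fun i => p.r (w i / g)) := by
  have h1 := ne_of_val hg
  have h2 := Pl.val_sub_gen hg
  rw [← eq_mxf (a := p.res (mxf ℂ w - pr ℂ g))
    (fun i => Pl.r_mem_Sec h2 ((mem_Sec_sub_pr h1).2 ?_)) fun W => ?_]
  · exact Pl.lin_rs hg
  · rw [div_mul_cancel₀ _ h1]
    exact mem_Sec_mxf w i
  · obtain ⟨i, hi⟩ := exists_val_mxf (k := ℂ) h0 (p.cm W)
    exact ⟨i, (Pl.val_res h2 (by rw [map_div₀, hi, val_sub, val_pr h1])).symm⟩

theorem lin_rs_const {w : ι → F} (h0 : ∃ i, w i ≠ 0) {g : F} (hg : p.V.v g = (mxf ℂ w).val p.V)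
    (h : ∀ i, ∃ c, p.r (w i / g) = algebraMap ℂ E c) : Lin (p.rs (mxf ℂ w)) 0 := by
  choose c hc using h
  obtain ⟨i, hi⟩ := exists_val_mxf (k := ℂ) h0 p.V
  have h1 : c i ≠ 0 := fun h1 => Pl.r_ne_zero_iff.2
    (by rw [map_div₀, hi, hg, div_self (val_ne _ _)]) ((hc i).trans (by rw [h1, map_zero]))
  rw [eq_mxf (a := 0) (s := fun i => p.r (w i / g)) (fun j V => ?_) fun V => ⟨i, ?_⟩]
  · exact lin_rs_mxf h0 hg
  · rw [hc]
    exact V.v_alg_le _
  · rw [hc]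
    exact V.v_alg h1

theorem const_of_alg {x : E} (h : IsAlgebraic ℂ x) : ∃ c, x = algebraMap ℂ E c := by
  obtain ⟨c, hc⟩ := minpoly.mem_range_of_degree_eq_one ℂ x
    (IsAlgClosed.degree_eq_one_of_irreducible ℂ (minpoly.irreducible h.isIntegral))
  exact ⟨c, hc.symm⟩

/-- a place which is not trivial on a curve has constant values on it -/
theorem exists_const (hp : Lnr p) {L : IntermediateField ℂ F} (hL : Algebra.trdeg ℂ L ≤ 1) {u x : F}
    (hu : u ∈ L) (hu' : u ∉ p.V.1) (hx : x ∈ L) (hx' : x ∈ p.V.1) :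
    ∃ c, p.r x = algebraMap ℂ E c := by
  refine const_of_alg (not_not.1 fun h => ?_)
  obtain ⟨n, hn⟩ := Cardinal.lt_aleph0.1 (hL.trans_lt Cardinal.one_lt_aleph0)
  let W := cm (L.val : L →+* F) (alg_ov L.val) p.V
  have h1 : ResInd ℂ W.1 (fun _ : Fin 1 => (⟨x, hx⟩ : L)) := ⟨fun _ => hx', fun P hP => by
    rw [← map_one W.v, v_cm_eq_iff, map_one, map_one, ← Pl.r_ne_zero_iff]
    have h2 : (L.val : L →+* F) (MvPolynomial.aeval (fun _ : Fin 1 => (⟨x, hx⟩ : L)) P) =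
        MvPolynomial.aeval (fun _ : Fin 1 => x) P := MvPolynomial.comp_aeval_apply _ L.val P
    rw [h2, (r_aeval hp (fun _ => hx') P).2]
    exact fun h3 => hP (algebraicIndependent_iff.1
      ((algebraicIndependent_unique_type_iff (x := fun _ : Fin 1 => p.r x)).2 h) P h3)⟩
  have h2 := h1.succ_le hn W.2 fun h2 => hu' (show (⟨u, hu⟩ : L) ∈ W.1 from h2 ▸ trivial)
  rw [hn] at hL
  have h3 : n ≤ 1 := by exact_mod_cast hL
  omega

theorem lin_rs_base (hp : Lnr p) {L : IntermediateField ℂ F} (hL : Algebra.trdeg ℂ L ≤ 1) {u : F}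
    (hu : u ∈ L) (hu' : u ∉ p.V.1) {w : ι → F} (h0 : ∃ i, w i ≠ 0) (hw : ∀ i, w i ∈ L) :
    Lin (p.rs (mxf ℂ w)) 0 := by
  obtain ⟨i, hi⟩ := exists_val_mxf (k := ℂ) h0 p.V
  exact lin_rs_const h0 hi fun j =>
    exists_const hp hL hu hu' (div_mem (hw j) (hw i)) (div_mem_of hi (mem_Sec_mxf w j))

theorem mxf_val_one {L : IntermediateField ℂ F} {V : RZ ℂ F} (hV : ∀ u ∈ L, u ∈ V.1) {w : ι → F}
    (h0 : ∃ i, w i ≠ 0) (hw : ∀ i, w i ∈ L) : (mxf ℂ w).val V = 1 := by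
  obtain ⟨i, hi⟩ := exists_val_mxf (k := ℂ) h0 V
  refine hi ▸ le_antisymm (RZ.le_one_iff.2 (hV _ (hw i))) ?_
  rw [← map_one V.v, RZ.le_iff (ne_of_val hi)]
  exact hV _ (div_mem (one_mem _) (hw i))

theorem mxf_eq_pb {L : IntermediateField ℂ F} {w : ι → F} (hw : ∀ i, w i ∈ L) :
    mxf ℂ w = pb L.val (mxf ℂ fun i => (⟨w i, hw i⟩ : L)) :=
  (pb_mxf L.val fun i => (⟨w i, hw i⟩ : L)).symm

theorem exists_bez {R : Type*} [CommRing R] [IsDomain R] [IsPrincipalIdealRing R] {P : κ → R}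
    (h : ∃ l, P l ≠ 0) : ∃ (g : R) (q u : κ → R), (∀ l, P l = g * q l) ∧ ∑ l, u l * q l = 1 := by
  obtain ⟨g, hg⟩ : ∃ g, Ideal.span (Set.range P) = Ideal.span {g} :=
    (IsPrincipalIdealRing.principal (Ideal.span (Set.range P))).principal
  choose q hq using fun l => Ideal.mem_span_singleton.1
    (show P l ∈ Ideal.span {g} from hg ▸ Ideal.subset_span ⟨l, rfl⟩)
  obtain ⟨u, hu⟩ := Ideal.mem_span_range_iff_exists_fun.1
    (show g ∈ Ideal.span (Set.range P) from hg ▸ Ideal.mem_span_singleton_self g)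
  obtain ⟨l, hl⟩ := h
  refine ⟨g, q, u, hq, mul_left_cancel₀ (left_ne_zero_of_mul (hq l ▸ hl)) ?_⟩
  rw [mul_one, Finset.mul_sum]
  exact (Finset.sum_congr rfl fun l _ => by rw [hq l]; ring).trans hu

variable [Algebra.EssFiniteType ℂ F]

theorem bnum_base {L : IntermediateField ℂ F} (hL : Algebra.trdeg ℂ L ≤ 1) {w : ι → F} {w' : κ → F}
    (hw : ∀ i, w i ∈ L) (hw' : ∀ i, w' i ∈ L) (l : List (BD ℂ F)) :
    bnum (mxf ℂ w :: mxf ℂ w' :: l) = 0 := by
  rw [trdeg_eq_dim] at hL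
  rw [mxf_eq_pb hw, mxf_eq_pb hw']
  exact bnum_pb_zero L.val (l := [_, _]) (Nat.lt_succ_of_le (by exact_mod_cast hL)) l

theorem null_two {a b : BD ℂ F} (h0 : 0 ≤ a)
    (h : ∀ V : RZ ℂ F, 1 < a.val V → Lin ((plV V).rs b) 0) (l : List (BD ℂ F)) :
    bnum (a :: b :: l) = 0 := by
  by_cases hd : l.length + 1 + 1 = dim ℂ F
  · exact cyc_zero hd.symm h0 fun V _ _ hV => ((h V hV).bnum_eq _).trans (bnum_zero _)
  · exact bnum_of_ne hd

/-! ### the cone -/

section Cone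

variable {L : IntermediateField ℂ F} {t : F} {z : ι → F} {h : BD ℂ F} {P : κ → L[X]} {e : ℕ}
  {V : RZ ℂ F}

/-- `h` is the hyperplane class of the cone with coordinates `(t, z)` over the curve `L` -/
structure Cn (L : IntermediateField ℂ F) (t : F) (z : ι → F) (h : BD ℂ F) : Prop where
  tr : Algebra.trdeg ℂ L ≤ 1
  mem : ∀ m, z m ∈ L
  ne : ∃ m, z m ≠ 0
  ht : t ∈ h.Sec
  hz : ∀ m, z m ∈ h.Sec
  gen : ∀ V : RZ ℂ F, V.v t = h.val V ∨ ∃ m, V.v (z m) = h.val V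

/-- the coefficients of the polynomials, twisted by the base coordinates -/
def gm (z : ι → F) (P : κ → L[X]) (e : ℕ) (x : κ × Fin (e + 1) × ι) : F :=
  (P x.1).coeff x.2.1 * z x.2.2 ^ (x.2.1 : ℕ)

omit [Algebra.EssFiniteType ℂ F] in
theorem aeval_eq {q : L[X]} (he : q.natDegree ≤ e) (t : F) :
    aeval t q = ∑ k : Fin (e + 1), (q.coeff k : F) * t ^ (k : ℕ) := by
  rw [aeval_eq_sum_range' (Nat.lt_succ_of_le he), Finset.sum_range]
  rfl

namespace Cn

variable (c : Cn L t z h)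
include c

theorem eq : h = mxf ℂ fun o : Option ι => o.elim t z :=
  eq_mxf (fun o => o.rec c.ht c.hz) fun V =>
    (c.gen V).elim (fun h => ⟨none, h⟩) fun ⟨m, h⟩ => ⟨some m, h⟩

theorem le : mxf ℂ z ≤ h := fun V => by
  obtain ⟨m, hm⟩ := exists_val_mxf (k := ℂ) c.ne V
  exact hm ▸ c.hz m V

theorem gm_mem (x : κ × Fin (e + 1) × ι) : gm z P e x ∈ L :=
  mul_mem (Subtype.prop _) (pow_mem (c.mem _) _)

theorem gm_ne {l : κ} (hl : P l ≠ 0) (he : (P l).natDegree = e) : ∃ x, gm z P e x ≠ 0 := by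
  obtain ⟨m, hm⟩ := c.ne
  refine ⟨(l, Fin.last e, m), mul_ne_zero ?_ (pow_ne_zero _ hm)⟩
  simpa [← he] using hl

theorem aeval_mem (he : ∀ l, (P l).natDegree ≤ e) (l : κ) :
    aeval t (P l) ∈ (e • (h - mxf ℂ z) + mxf ℂ (gm z P e)).Sec := fun V => by
  obtain ⟨m, hm⟩ := exists_val_mxf (k := ℂ) c.ne V
  rw [aeval_eq (he l), val_add, val_nsmul, val_sub]
  refine V.v.map_sum_le fun k _ => ?_
  have h1 := mem_Sec_mxf (k := ℂ) (gm z P e) (l, k, m) V
  have h2 : 1 ≤ h.val V / (mxf ℂ z).val V := (one_le_div₀ (val_pos _ _)).2 (c.le V)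
  rw [gm, map_mul, map_pow, hm] at h1
  calc V.v (((P l).coeff k : F) * t ^ (k : ℕ))
      ≤ V.v ((P l).coeff k : F) * h.val V ^ (k : ℕ) := by
        rw [map_mul, map_pow]
        gcongr
        exact c.ht V
    _ = (h.val V / (mxf ℂ z).val V) ^ (k : ℕ) *
        (V.v ((P l).coeff k : F) * (mxf ℂ z).val V ^ (k : ℕ)) := by
        have := val_ne (mxf ℂ z) V
        rw [div_pow]
        field_simp
    _ ≤ _ := mul_le_mul' (pow_le_pow_right₀ h2 (Nat.le_of_lt_succ k.2)) h1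

/-- valuations which are trivial on the base -/
theorem hor {u : κ → L[X]} (hu : ∑ l, u l * P l = 1) {l : κ} (hl : P l ≠ 0)
    (he : (P l).natDegree = e) (hV : ∀ x ∈ L, x ∈ V.1) :
    (e • (h - mxf ℂ z) + mxf ℂ (gm z P e)).val V ≤ (mxf ℂ fun l => aeval t (P l)).val V := by
  have h1 := mxf_val_one hV c.ne c.mem
  have h0 : ∀ x : L, V.v (x : F) ≤ 1 := fun x => RZ.le_one_iff.2 (hV _ x.2)
  rw [val_add, val_nsmul, val_sub, h1, mxf_val_one hV (c.gm_ne hl he) c.gm_mem, div_one, mul_one]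
  rcases le_or_gt (V.v t) 1 with h2 | h2
  · have h3 : h.val V ≤ 1 := (c.gen V).elim (fun h => h ▸ h2) fun ⟨m, h⟩ =>
      h ▸ h0 ⟨z m, c.mem m⟩
    refine (pow_le_one' h3 e).trans ?_
    rw [← map_one V.v, ← map_one (aeval t : L[X] →ₐ[L] F), ← hu, map_sum]
    refine V.v.map_sum_le fun l _ => ?_
    rw [map_mul, map_mul]
    refine (mul_le_of_le_one_left' ?_).trans (mem_Sec_mxf (fun l => aeval t (P l)) l V)
    rw [aeval_eq le_rfl]
    refine V.v.map_sum_le fun k _ => ?_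
    rw [map_mul, map_pow]
    exact mul_le_one' (h0 _) (pow_le_one' h2 _)
  · have h3 : V.v t = h.val V := (c.gen V).elim id fun ⟨m, h⟩ =>
      absurd (h2.trans_le (h ▸ c.ht V)) (h0 ⟨z m, c.mem m⟩).not_gt
    refine le_trans (le_of_eq ?_) (mem_Sec_mxf (fun l => aeval t (P l)) l V)
    have h4 : V.v (((P l).coeff e : F) * t ^ e) = h.val V ^ e := by
      rw [map_mul, map_pow, h3, mul_eq_right₀ (pow_ne_zero _ (val_ne _ _))]
      refine le_antisymm (h0 _) ?_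
      rw [← map_one V.v, RZ.le_iff (by simpa [← he] using hl)]
      exact hV _ (div_mem (one_mem _) (Subtype.prop _))
    rw [aeval_eq he.le, Fin.sum_univ_castSucc, Fin.val_last, V.v.map_add_eq_of_lt_right, h4]
    rw [h4]
    refine V.v.map_sum_lt (pow_ne_zero _ (val_ne _ _)) fun k _ => ?_
    rw [map_mul, map_pow, ← h3]
    exact (mul_le_of_le_one_left' (h0 _)).trans_lt (pow_lt_pow_right₀ h2 k.2)

theorem triv {g : F} (hg : V.v g = h.val V) (h1 : ∃ a, (plV V).r (t / g) = algebraMap ℂ _ a)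
    (h2 : ∀ m, ∃ a, (plV V).r (z m / g) = algebraMap ℂ _ a) : Lin ((plV V).rs h) 0 := by
  have h3 := c.eq
  obtain ⟨m, hm⟩ := c.ne
  generalize hw : (fun o : Option ι => o.elim t z) = w at h3
  subst h3
  refine lin_rs_const ⟨some m, hw ▸ hm⟩ hg fun o => ?_
  rw [← hw]
  cases o
  exacts [h1, h2 _]

theorem triv' (hV : ∀ m, V.v (z m) < h.val V) : Lin ((plV V).rs h) 0 := by
  have h3 : V.v t = h.val V := (c.gen V).elim id fun ⟨m', h⟩ => absurd h (hV m').ne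
  refine c.triv h3 ⟨1, ?_⟩ fun m => ⟨0, ?_⟩
  · rw [div_self (ne_of_val h3), Pl.r_one, map_one]
  · have h4 : V.v (z m / t) < 1 := by
      rw [map_div₀, h3]
      exact (div_lt_one₀ (val_pos _ _)).2 (hV m)
    rw [map_zero]
    exact (Pl.r_eq_zero (p := plV V) (div_mem_of h3 (c.hz m))).2 h4

/-- vertical valuations on which `h` is not trivial -/
theorem ver {l : κ} (hl : P l ≠ 0) (hl' : (P l).natDegree = e) (he : ∀ l, (P l).natDegree ≤ e)
    {u : F} (hu : u ∈ L) (hu' : u ∉ V.1) (hV : ¬ Lin ((plV V).rs h) 0) :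
    (e • (h - mxf ℂ z) + mxf ℂ (gm z P e)).val V ≤ (mxf ℂ fun l => aeval t (P l)).val V := by
  have hc : ∀ x ∈ L, x ∈ V.1 → ∃ a, (plV V).r x = algebraMap ℂ _ a := fun x =>
    exists_const (lnr_plV V) c.tr hu hu'
  obtain ⟨m, hm⟩ := exists_val_mxf (k := ℂ) c.ne V
  have h1 : V.v (z m) = h.val V := le_antisymm (c.hz m V) (not_lt.1 fun h1 => hV
    (c.triv' fun m' => ((mem_Sec_mxf z m' V).trans hm.ge).trans_lt h1))
  have h2 : Transcendental ℂ ((plV V).r (t / z m)) := fun h2 => hV (c.triv h1 (const_of_alg h2)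
    fun m' => hc _ (div_mem (c.mem m') (c.mem m)) (div_mem_of h1 (c.hz m')))
  rw [val_add, val_nsmul, val_sub, ← hm, h1, div_self (val_ne _ _), one_pow, one_mul]
  obtain ⟨⟨l0, k0, m0⟩, h3⟩ := exists_val_mxf (k := ℂ) (c.gm_ne hl hl') V
  have h4 : V.v (gm z P e (l0, k0, m)) = (mxf ℂ (gm z P e)).val V := by
    refine le_antisymm (mem_Sec_mxf _ _ V) (h3.ge.trans ?_)
    simp only [gm, map_mul, map_pow]
    gcongr
    exact h1 ▸ c.hz m0 V
  have h5 := fun k => div_mem_of h4 (mem_Sec_mxf _ (l0, k, m))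
  choose a ha using fun k => hc _ (div_mem (c.gm_mem (l0, k, m)) (c.gm_mem (l0, k0, m))) (h5 k)
  have h6 := div_mem_of h1 c.ht
  have h7 : aeval t (P l0) / gm z P e (l0, k0, m) =
      ∑ k : Fin (e + 1), gm z P e (l0, k, m) / gm z P e (l0, k0, m) * (t / z m) ^ (k : ℕ) := by
    rw [aeval_eq (he l0), Finset.sum_div]
    refine Finset.sum_congr rfl fun k _ => ?_
    have := ne_of_val h1
    rw [gm.eq_1 z P e (l0, k, m), div_pow]
    field_simp
  have h8 : (plV V).r (aeval t (P l0) / gm z P e (l0, k0, m)) =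
      aeval ((plV V).r (t / z m)) (∑ k : Fin (e + 1), monomial (k : ℕ) (a k)) := by
    rw [h7, r_sum _ fun k _ => mul_mem (h5 k) (pow_mem h6 _), map_sum]
    refine Finset.sum_congr rfl fun k _ => ?_
    rw [Pl.r_mul (h5 k) (pow_mem h6 _), Pl.r_pow h6, ha, aeval_monomial]
  have h9 : (plV V).r (aeval t (P l0) / gm z P e (l0, k0, m)) ≠ 0 := fun h9 => by
    have h10 := congrArg (coeff · k0) (transcendental_iff.1 h2 _ (h8 ▸ h9))
    have h11 := ha k0
    rw [div_self (ne_of_val h4), Pl.r_one] at h11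
    simp only [finsetSum_coeff, coeff_monomial, Fin.val_inj, Finset.sum_ite_eq', Finset.mem_univ,
      if_true, coeff_zero] at h10
    rw [h10, map_zero] at h11
    exact one_ne_zero h11
  rw [Pl.r_ne_zero_iff, map_div₀, plV_V, h4, div_eq_one_iff_eq (val_ne _ _)] at h9
  exact h9 ▸ mem_Sec_mxf (fun l => aeval t (P l)) l0 V

theorem null_sub (l : List (BD ℂ F)) : bnum ((h - mxf ℂ z) :: h :: l) = 0 := by
  refine null_two (sub_nonneg.2 c.le) (fun V hV => ?_) l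
  rw [val_sub, one_lt_div₀ (val_pos _ _)] at hV
  exact c.triv' fun m' => (mem_Sec_mxf z m' V).trans_lt hV

theorem cube : bnum [h, h, h] = 0 := by
  have h1 := c.null_sub [h]
  have h2 := c.null_sub [mxf ℂ z]
  rw [bnum_sub, sub_eq_zero] at h1 h2
  exact h1.trans ((bnum_comm [_] [h, h]).trans
    (h2.trans ((bnum_comm [_, h] [_]).trans (bnum_base c.tr c.mem c.mem _))))

theorem nums {u : κ → L[X]} (hu : ∑ l, u l * P l = 1)
    (hb : Bd h (mxf ℂ fun l => aeval t (P l))) : ∃ e : ℕ,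
      bnum [h, mxf ℂ fun l => aeval t (P l)] = e * bnum [h, h] ∧
      bnum [mxf ℂ fun l => aeval t (P l), mxf ℂ fun l => aeval t (P l)] = e ^ 2 * bnum [h, h] := by
  have h0 : ∃ l, aeval t (P l) ≠ 0 := by
    by_contra! h0
    simpa [h0] using congrArg (aeval t) hu
  obtain ⟨l1, h1⟩ := h0
  obtain ⟨l, -, hl⟩ := Finset.exists_max_image Finset.univ (fun l => (P l).degree)
    ⟨l1, Finset.mem_univ _⟩
  have hl0 : P l ≠ 0 := fun h2 => h1 (by
    have h3 := hl l1 (Finset.mem_univ _)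
    rw [h2, degree_zero, le_bot_iff, degree_eq_bot] at h3
    rw [h3, map_zero])
  have he : ∀ l', (P l').natDegree ≤ (P l).natDegree := fun l' =>
    natDegree_le_natDegree (hl l' (Finset.mem_univ _))
  set e := (P l).natDegree with he'
  set b := mxf ℂ fun l => aeval t (P l) with hb'
  set γ := mxf ℂ (gm z P e) with hγ
  set φ := mxf ℂ z with hφ
  have h2 : 0 ≤ e • (h - φ) + γ - b := sub_nonneg.2 fun V => by
    obtain ⟨l', h2⟩ := exists_val_mxf (k := ℂ) (s := fun l => aeval t (P l)) ⟨l1, h1⟩ V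
    exact h2 ▸ c.aeval_mem he l' V
  have h3 : ∀ V : RZ ℂ F, 1 < (e • (h - φ) + γ - b).val V →
      (∃ u ∈ L, u ∉ V.1) ∧ Lin ((plV V).rs h) 0 := fun V hV => by
    rw [val_sub, one_lt_div₀ (val_pos _ _)] at hV
    obtain ⟨x, h3, h4⟩ : ∃ u ∈ L, u ∉ V.1 := by
      by_contra! h3
      exact hV.not_ge (c.hor hu hl0 rfl h3)
    exact ⟨⟨x, h3, h4⟩, not_not.1 fun h5 => hV.not_ge (c.ver hl0 rfl he h3 h4 h5)⟩
  have h4 := null_two h2 (fun V hV => (h3 V hV).2) []
  have h5 := null_two h2 (b := φ) (fun V hV => (h3 V hV).1.elim fun x hx =>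
    lin_rs_base (lnr_plV V) c.tr hx.1 hx.2 c.ne c.mem) []
  have h6 := null_two h2 (b := γ) (fun V hV => (h3 V hV).1.elim fun x hx =>
    lin_rs_base (lnr_plV V) c.tr hx.1 hx.2 (c.gm_ne hl0 rfl) c.gm_mem) []
  have h7 := c.null_sub []
  have h8 := null_eff hb h2 (by simp) h4
  have h9 := null_eff hb (sub_nonneg.2 c.le) (by simp) h7
  have h10 : bnum [φ, φ] = 0 := bnum_base c.tr c.mem c.mem _
  have h11 : bnum [γ, φ] = 0 := bnum_base c.tr c.gm_mem c.mem _
  have h12 : bnum [γ, γ] = 0 := bnum_base c.tr c.gm_mem c.gm_mem _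
  simp only [bnum_sub, bnum_add, bnum_nsmul, ← hφ] at h4 h5 h6 h7 h8 h9
  rw [bnum_swap h φ, bnum_swap b φ] at h5
  rw [bnum_swap h γ, bnum_swap φ γ, bnum_swap b γ] at h6
  rw [bnum_swap b h] at h4
  have h13 : bnum [h, b] = e * bnum [h, h] := by linear_combination h9 - h5 - e * h7 - e * h10 + h11
  refine ⟨e, h13, ?_⟩
  linear_combination -h8 + e * h9 - h6 + e * h4 - e ^ 2 * h7 + e * h13 - e * h11 + h12

/-- **divisors on a cone over a curve** -/
theorem nonneg {s : κ → F} (h0 : ∃ l, s l ≠ 0)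
    (hs : ∀ l, s l ∈ IntermediateField.adjoin L {t}) (hb : Bd h (mxf ℂ s)) (n : ℕ) :
    0 ≤ bnum [mxf ℂ s - n • h, mxf ℂ s - n • h] := by
  classical
  choose a d had using fun l => (IntermediateField.mem_adjoin_simple_iff L (s l)).1 (hs l)
  obtain ⟨a, d, hd0, had⟩ : ∃ a d : κ → L[X], (∀ l, aeval t (d l) ≠ 0) ∧
      ∀ l, s l = aeval t (a l) / aeval t (d l) :=
    ⟨fun l => if aeval t (d l) = 0 then 0 else a l, fun l => if aeval t (d l) = 0 then 1 else d l,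
      fun l => by by_cases h : aeval t (d l) = 0 <;> simp [h],
      fun l => by by_cases h : aeval t (d l) = 0 <;> simp [h, had l]⟩
  have h1 : ∏ l, aeval t (d l) ≠ 0 := Finset.prod_ne_zero_iff.2 fun l _ => hd0 l
  have h2 : ∀ l, s l = aeval t (a l * ∏ l' ∈ Finset.univ.erase l, d l') / ∏ l, aeval t (d l) :=
    fun l => by
      rw [← Finset.mul_prod_erase _ _ (Finset.mem_univ l), map_mul, map_prod, had l,
        mul_div_mul_right _ _ (Finset.prod_ne_zero_iff.2 fun l _ => hd0 l)]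
  obtain ⟨l0, hl0⟩ := h0
  obtain ⟨g, q, u, h3, h4⟩ := exists_bez (P := fun l => a l * ∏ l' ∈ Finset.univ.erase l, d l')
    ⟨l0, fun h => hl0 (by rw [h2, h, map_zero, zero_div])⟩
  have h5 : ∀ l, s l = aeval t (q l) * (aeval t g / ∏ l, aeval t (d l)) := fun l => by
    rw [h2, h3, map_mul, mul_comm, mul_div_assoc]
  have h6 := right_ne_zero_of_mul (h5 l0 ▸ hl0)
  have h7 : Lin (mxf ℂ s) (mxf ℂ fun l => aeval t (q l)) := by
    refine ⟨_, h6, (eq_mxf (fun l => ?_) fun V => ?_).symm⟩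
    · exact h5 l ▸ mul_mem_Sec (mem_Sec_mxf (fun l => aeval t (q l)) l) (mem_Sec_pr _)
    · obtain ⟨l, hl⟩ := exists_val_mxf (k := ℂ) (s := fun l => aeval t (q l))
        ⟨l0, left_ne_zero_of_mul (h5 l0 ▸ hl0)⟩ V
      exact ⟨l, by rw [h5, map_mul, hl, val_add, val_pr h6]⟩
  obtain ⟨e, h8, h9⟩ := c.nums h4 (by
    obtain ⟨m, h8, h9⟩ := hb
    rw [sub_eq_add_neg] at h9
    exact ⟨m, (Lin.rfl.add h7).symm.nef h8, by
      simpa only [sub_eq_add_neg] using (Lin.rfl.add h7.neg).symm.nef h9⟩)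
  have h10 : 0 ≤ bnum [h, h] := bnum_nonneg (all_rp (c.eq ▸ (free_mxf _).nef) 2)
  rw [bnum_swap] at h8
  simp only [bnum_sub, bnum_sub2, bnum_nsmul, bnum_nsmul2]
  rw [bnum_swap h (mxf ℂ s), h7.bnum_eq, h7.bnum_eq, bnum_swap _ (mxf ℂ s), h7.bnum_eq, h9, h8]
  nlinarith [mul_nonneg (sq_nonneg ((e : ℤ) - n)) h10]

end Cn

end Cone

end Crest.Agent.X262.Rho82
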