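import Crest.Agent.X262.Rho82.Nef
import Crest.Agent.X262.FG.Prm0
import Crest.Agent.X262.Fano.Rho

/-!
# Row 262, RHO (helper82), part 3: numerically trivial classes on rational varieties

* `eq_zero_of_trace` : a numerically trivial b-divisor without trace on a smooth model is zero;
* `lin_of_numZ`      : on a rational variety numerically trivial b-divisors are principal.
-/

set_option autoImplicit false

noncomputable section

namespace Crest.Agent.X262.Rho82

open Crest.Agent.X277 Crest.Agent.X277.Lef Crest.Agent.X277.BD Crest.Agent.X277.BD.Br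
open Crest.Agent.X277.Link (IsPD)
open scoped KaehlerDifferential
open List (replicate)

variable {F : Type} [Field F] [Algebra ℂ F] [Algebra.EssFiniteType ℂ F] {P : PModel ℂ F}
  {z : BD ℂ F} {d : ℕ}

theorem nonpos_of_trace (hd : dim ℂ F = d + 1) (hz : NumZ z)
    (h : ∀ v (hv : IsPD P v), ord v hv.triv z = 0) : z ≤ 0 := by
  refine sup_eq_right.1 (eq_zero_of_sq free_oP.nef (big_oP P) le_sup_right (fun e => ?_) fun Λ => ?_)
  · by_cases he : e = d
    · rw [he]
      exact FG.Prm5.bnum_eq_zero_of_pd hd fun v hv => by rw [ord_sup, h v hv, map_zero, max_self]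
    · exact bnum_of_ne (by simpa [hd] using he)
  · have h1 : z ⊔ 0 = z + (-z) ⊔ 0 := by rw [add_sup, add_neg_cancel, add_zero, sup_comm]
    have h2 := null_of_inf (a := z ⊔ 0) (b := (-z) ⊔ 0) le_sup_right (fun V hV => by
      rw [val_sup, val_zero, lt_max_iff, or_iff_left (lt_irrefl _)] at hV
      rw [val_sup, val_zero, val_neg, max_eq_right (inv_le_one_of_one_le₀ hV.le)]) Λ
    nth_rewrite 2 [h1]
    rw [bnum_add2, h2, bnum_swap, hz, add_zero]

/-- a numerically trivial b-divisor without trace on a smooth model is zero -/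
theorem eq_zero_of_trace (hd : dim ℂ F = d + 1) (hz : NumZ z)
    (h : ∀ v (hv : IsPD P v), ord v hv.triv z = 0) : z = 0 :=
  le_antisymm (nonpos_of_trace hd hz h)
    (neg_nonpos.1 (nonpos_of_trace hd hz.neg fun v hv => by rw [map_neg, h v hv, neg_zero]))

/-- if the Picard group of one smooth model is generated by the hyperplane class, all numerically
trivial b-divisors are principal -/
theorem lin_of_numZ' (hd : dim ℂ F = d + 1) (hP : ∀ a ∈ On P, ∃ c : ℤ, Lin a (c • oP P))
    (hz : NumZ z) : Lin z 0 := by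
  obtain ⟨τ, h1, h2⟩ := FG.exists_wd (P := P) (Finsupp.ofSupportFinite _ (FG.finite_ord P z))
  have h3 : ∀ v (hv : IsPD P v), ord v hv.triv (z - τ) = 0 := fun v hv => by
    rw [map_sub, h2 v hv, Finsupp.ofSupportFinite_coe, sub_self]
  obtain ⟨c, hc⟩ := hP τ h1
  have h4 := FG.Prm5.bnum_eq_zero_of_pd hd h3
  rw [bnum_sub, hz, hc.bnum_eq, bnum_zsmul, zero_sub, neg_eq_zero, ← List.replicate_succ,
    ← hd] at h4
  obtain rfl := (mul_eq_zero.1 h4).resolve_right (free_oP.nef.big_iff.1 (big_oP P)).ne'
  rw [zero_smul] at hc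
  have h5 := eq_zero_of_trace hd (hz.sub fun l => (hc.bnum_eq l).trans (bnum_zero l)) h3
  rwa [sub_eq_zero.1 h5]

/-- **on a rational variety numerically trivial b-divisors are principal** -/
theorem lin_of_numZ (b : Module.Basis (Fin (d + 1)) F Ω[F⁄ℂ]) (hN : P.N = d + 1) (hz : NumZ z) :
    Lin z 0 :=
  lin_of_numZ' ((Module.finrank_eq_card_basis b).trans (Fintype.card_fin _))
    (fun _ ha => Fano.rho_proj b hN ha) hz

end Crest.Agent.X262.Rho82
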