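import Crest.Agent.X262.Rho82.Cone
import Crest.Agent.X262.Rho82.Alg
import Crest.Agent.X262.Rho82.Rat
import Crest.Agent.X262.Fam17.Pl
import Crest.Agent.X262.Fano.Main

/-!
# Row 262, RHO (helper82), part 5: a rational smooth cubic fourfold has Picard number one

The class `h²` is a multiple of the cone of lines through a point, on which all Cartier divisors
have non-negative square. By the Hodge index theorem primitive divisors are numerically trivial,
hence principal because the field is rational.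

* `sq_nonneg_cubic`, `rho_cubic`, `fanoXStmt`.
-/

set_option autoImplicit false

noncomputable section

namespace Crest.Agent.X262.Rho82

open Crest.Agent.X277 Crest.Agent.X277.Lef Crest.Agent.X277.AN.G1 Crest.Agent.X277.BD
open Crest.Agent.X277.BD.Cyc Crest.Agent.X277.BD.Br Crest.Agent.X262.Top MvPolynomial
open scoped KaehlerDifferential
open List (replicate)

variable {K E : Type} [Field K] [Algebra ℂ K] [Field E] [Algebra ℂ E]

theorem Bd.lin {H H' a a' : BD ℂ K} (h : Bd H a) (h1 : Lin H H') (h2 : Lin a a') : Bd H' a' := by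
  obtain ⟨m, h3, h4⟩ := h
  rw [sub_eq_add_neg] at h4
  exact ⟨m, ((h1.nsmul m).add h2).symm.nef h3, by
    simpa only [sub_eq_add_neg] using ((h1.nsmul m).add h2.neg).symm.nef h4⟩

theorem aeval_mem_Sec {ι : Type} [Fintype ι] {y : ι → K} (h0 : ∃ i, y i ≠ 0)
    {q : MvPolynomial ι ℂ} {d : ℕ} (hq : q.IsHomogeneous d) : aeval y q ∈ (d • mxf ℂ y).Sec :=
  fun V => by
    obtain ⟨i, hi⟩ := exists_val_mxf (k := ℂ) h0 V
    have h1 := (r_aeval (lnr_plV V) (fun j => div_mem_of hi (mem_Sec_mxf y j)) q).1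
    rw [aeval_div hq] at h1
    rw [val_nsmul, ← hi, ← map_pow]
    exact (RZ.le_iff (pow_ne_zero d (ne_of_val hi))).2 h1

theorem exists_cn {y : Fin 6 → E} {i : Fin 6} (hi : y i = 1) {w : Fin 4 → E}
    (h1 : ∀ j, y j ∈ Submodule.span ℂ (insert (y 0) (Set.range w)))
    (h2 : ∀ m, w m ∈ (mxf ℂ y).Sec) (h3 : (∃ m, w m ≠ 0) → Algebra.trdeg ℂ (qf ℂ w) ≤ 1) :
    ∃ (L : IntermediateField ℂ E) (t : E) (z : Fin 4 → E) (h : BD ℂ E), Cn L t z h ∧
      Lin (mxf ℂ y) h ∧ ∀ j, y j ∈ IntermediateField.adjoin L {t} := by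
  have h0 : ∃ i, y i ≠ 0 := ⟨i, hi ▸ one_ne_zero⟩
  by_cases hw : ∃ m, w m ≠ 0
  · obtain ⟨m0, hm⟩ := id hw
    have h4 : ∀ j, y j / w m0 ∈ IntermediateField.adjoin (qf ℂ w) {y 0 / w m0} := fun j => by
      refine Submodule.span_induction (p := fun x _ =>
        x / w m0 ∈ IntermediateField.adjoin (qf ℂ w) {y 0 / w m0}) ?_ ?_ ?_ ?_ (h1 j)
      · rintro _ (rfl | ⟨m, rfl⟩)
        · exact IntermediateField.mem_adjoin_simple_self _ _
        · exact IntermediateField.algebraMap_mem _ (⟨_, div_mem_qf w m0 m⟩ : qf ℂ w)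
      · rw [zero_div]
        exact zero_mem _
      · exact fun _ _ _ _ h h' => add_div (K := E) _ _ _ ▸ add_mem h h'
      · intro c x _ h
        rw [Algebra.smul_def, mul_div_assoc, IsScalarTower.algebraMap_apply ℂ (qf ℂ w) E]
        exact mul_mem (IntermediateField.algebraMap_mem _ _) h
    have h5 : ∀ {x}, x ∈ (mxf ℂ y).Sec → x / w m0 ∈ (mxf ℂ y - pr ℂ (w m0)).Sec := fun hx =>
      (mem_Sec_sub_pr hm).2 (by rwa [div_mul_cancel₀ _ hm])
    refine ⟨qf ℂ w, y 0 / w m0, fun m => w m / w m0, mxf ℂ y - pr ℂ (w m0),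
      ⟨h3 hw, fun m => div_mem_qf w m0 m, ⟨m0, div_ne_zero hm hm⟩, h5 (mem_Sec_mxf y 0),
        fun m => h5 (h2 m), fun V => ?_⟩, ⟨_, hm, (sub_add_cancel _ _).symm⟩, fun j => ?_⟩
    · simp only [map_div₀, val_sub, val_pr hm, div_left_inj' (RZ.ne_zero_iff.2 hm)]
      obtain ⟨j, hj⟩ := exists_val_mxf (k := ℂ) h0 V
      obtain ⟨o, ho⟩ := exists_val_mxf (k := ℂ) (s := fun o : Option (Fin 4) => o.elim (y 0) w)
        ⟨some m0, hm⟩ V
      have h6 := RZ.v_le_of_span (V := V) (γ := V.v (o.elim (y 0) w)) (by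
        rintro _ (rfl | ⟨m, rfl⟩)
        exacts [ho ▸ mem_Sec_mxf _ none V, ho ▸ mem_Sec_mxf _ (some m) V]) (h1 j)
      rw [hj] at h6
      cases o
      exacts [Or.inl (le_antisymm (mem_Sec_mxf y 0 V) h6), Or.inr ⟨_, le_antisymm (h2 _ V) h6⟩]
    · have h6 := div_mem (h4 j) (h4 i)
      rwa [hi, div_div_div_cancel_right₀ hm, div_one] at h6
  · push Not at hw
    have h4 : ∀ j, ∃ c : ℂ, c • y 0 = y j := fun j => Submodule.mem_span_singleton.1
      (Submodule.span_le.2 (by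
        rintro _ (rfl | ⟨m, rfl⟩)
        exacts [Submodule.mem_span_singleton_self _, hw m ▸ zero_mem _]) (h1 j))
    choose c hc using h4
    have h5 : ∀ j, y j = algebraMap ℂ E (c j / c i) := fun j => by
      have h5 := hc i
      rw [hi, Algebra.smul_def] at h5
      rw [← hc j, Algebra.smul_def, map_div₀, eq_inv_of_mul_eq_one_right h5, div_eq_mul_inv]
    refine ⟨⊥, 0, fun _ => 1, 0, ⟨?_, fun _ => one_mem _, ⟨0, one_ne_zero⟩, zero_mem _,
      fun _ => one_mem_Sec, fun V => Or.inr ⟨0, map_one _⟩⟩, ?_, fun j => ?_⟩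
    · rw [trdeg_eq_zero]
      exact zero_le_one
    · rw [eq_mxf (a := 0) (s := y) (fun j V => h5 j ▸ V.v_alg_le _) fun V => ⟨i, hi ▸ map_one _⟩]
      exact Lin.rfl
    · rw [h5, IsScalarTower.algebraMap_apply ℂ (⊥ : IntermediateField ℂ E) E]
      exact IntermediateField.algebraMap_mem _ _

variable {G L : MvPolynomial (Fin 6) ℂ} {Z : Fin 4 → MvPolynomial (Fin 6) ℂ}
  {r : MvPolynomial (Fin 4) ℂ} {k : ℕ}

/-- the tangent hyperplane at a point and the cone of lines -/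
structure Tg (G L : MvPolynomial (Fin 6) ℂ) (Z : Fin 4 → MvPolynomial (Fin 6) ℂ)
    (r : MvPolynomial (Fin 4) ℂ) (k : ℕ) : Prop where
  hG : G.IsHomogeneous 3
  hL : L.IsHomogeneous 1
  ne : L ≠ 0
  hZ : ∀ m, (Z m).IsHomogeneous 1
  sp : ∀ i, X i ∈ Submodule.span ℂ (insert L (insert (X 0) (Set.range Z)))
  k_ne : k ≠ 0
  hr : r.IsHomogeneous k
  tr : ∀ (E : Type) [Field E] [Algebra ℂ E] (y : Fin 6 → E), aeval y G = 0 → aeval y L = 0 →
    aeval (fun m => aeval y (Z m)) r = 0 → (∃ m, aeval y (Z m) ≠ 0) →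
      Algebra.trdeg ℂ (qf ℂ fun m => aeval y (Z m)) ≤ 1

theorem Tg.hR (T : Tg G L Z r k) : (aeval Z r).IsHomogeneous k := by
  simpa using T.hr.aeval (n := 1) Z T.hZ

/-- places with centre in the cone -/
theorem Tg.cone (T : Tg G L Z r k) (X : Hyp 5 G K) [Algebra.EssFiniteType ℂ E] {p : Pl ℂ K ℂ E}
    (hp : Lnr p) (h1 : p.V.v (aeval X.y L) < (oP X.P).val p.V)
    (h2 : p.V.v (aeval X.y (aeval Z r)) < (k • oP X.P).val p.V) :
    bnum (replicate 3 (p.rs (oP X.P))) = 0 ∧ ∀ a ∈ On X.P, 0 ≤ bnum [p.rs a, p.rs a] := by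
  obtain ⟨x, hx⟩ := exists_ov' X.P p.V
  obtain ⟨i, hi⟩ := exists_pat x
  have h3 := at_y hi p.V hx
  have h4 : ∀ j, X.y j / X.y i ∈ p.V.1 := fun j => hx _ (y_mem hi j)
  set y : Fin 6 → E := fun j => p.r (X.y j / X.y i) with hy
  have h5 : y i = 1 := by simp only [hy, div_self (X.y_ne i), Pl.r_one]
  have h6 : ∀ {q : MvPolynomial (Fin 6) ℂ} {d : ℕ}, q.IsHomogeneous d →
      p.V.v (aeval X.y q) < (d • oP X.P).val p.V → aeval y q = 0 := fun {q d} hq h => by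
    rw [← (r_aeval hp h4 q).2, Pl.r_eq_zero (r_aeval hp h4 q).1, aeval_div hq, map_div₀, map_pow]
    rw [val_nsmul, ← h3] at h
    exact (div_lt_one₀ (pow_pos (RZ.pos (X.y_ne i)) d)).2 h
  have h7 := h6 T.hL (by rwa [one_smul])
  obtain ⟨M, t, z, h, c, h8, h9⟩ := exists_cn h5 (w := fun m => aeval y (Z m)) (fun j => by
      have h8 := Submodule.apply_mem_span_image_of_mem_span (aeval y).toLinearMap (T.sp j)
      rw [Set.image_insert_eq, Set.image_insert_eq, ← Set.range_comp] at h8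
      simpa only [AlgHom.toLinearMap_apply, aeval_X, h7, Submodule.span_insert_zero,
        Function.comp_def] using h8)
    (fun m => by simpa using aeval_mem_Sec ⟨i, h5 ▸ one_ne_zero⟩ (T.hZ m))
    (T.tr E y (h6 T.hG (by rw [(X.ker 3 G T.hG).2 dvd_rfl, map_zero]; exact val_pos _ _)) h7
      (by rw [← h6 T.hR h2, ← AlgHom.comp_apply, comp_aeval]))
  have h10 : Lin (p.rs (oP X.P)) h := (lin_rs_mxf ⟨i, X.y_ne i⟩ h3).trans h8
  refine ⟨(Loc.bnum_rep_lin h10 3 []).trans c.cube, fun a ha => ?_⟩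
  obtain ⟨b, hb, n, h11, rfl⟩ := exists_sub_On ha
  obtain ⟨_, s, h12, h13, rfl⟩ := exists_gn hb h11
  obtain ⟨j, h14, h15⟩ := h13 x
  have h16 := lin_rs_mxf (p := p) ⟨j, h14⟩ (at_mxf h14 h15 p.V hx)
  have h17 := (lin_rs_sub p _ _).trans (by
    simpa only [sub_eq_add_neg] using h16.add ((lin_rs_nsmul p n _).trans (h10.nsmul n)).neg)
  rw [h17.bnum_eq, bnum_swap, h17.bnum_eq, ← sub_eq_add_neg]
  refine c.nonneg ⟨j, by rw [div_self h14, Pl.r_one]; exact one_ne_zero⟩ (fun l => ?_)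
    (((bd_of_car (car_oP hb)).rs p).lin h10 h16) n
  have h18 : ∀ u ∈ X.P.A i, u ∈ p.V.1 ∧ p.r u ∈ IntermediateField.adjoin M {t} := fun u hu => by
    obtain ⟨q, rfl⟩ := exists_poly hu
    refine ⟨(r_aeval hp h4 q).1, (r_aeval hp h4 q).2 ▸ ?_⟩
    refine (show (aeval y).range ≤
      ((IntermediateField.adjoin M {t}).restrictScalars ℂ).toSubalgebra from ?_) ⟨q, rfl⟩
    rw [← Algebra.adjoin_range_eq_range_aeval, Algebra.adjoin_le_iff]
    rintro _ ⟨m, rfl⟩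
    exact h9 m
  obtain ⟨u, hu, w, hw, h19, h20⟩ := (mem_lp_iff hi).1 (h15 l)
  have h21 := ev_ne_iff'.1 h19 p.V hx
  rw [eq_div_of_mul_eq (RZ.ne_zero_iff.1 (h21 ▸ one_ne_zero)) h20, Pl.r_div (h18 u hu).1 h21]
  exact div_mem (h18 u hu).2 (h18 w hw).2

theorem Tg.nonneg (T : Tg G L Z r k) (X : Hyp 5 G K) [Algebra.EssFiniteType ℂ K]
    (hd : dim ℂ K = 4) {a : BD ℂ K} (ha : a ∈ On X.P) : 0 ≤ bnum [oP X.P, oP X.P, a, a] := by
  have h0 : ∃ i, X.y i ≠ 0 := ⟨0, X.y_ne 0⟩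
  have h1 : aeval X.y L ≠ 0 := fun h => by
    have h1 := (X.ker 1 L T.hL).1 h
    have h2 := totalDegree_le_of_dvd_of_isDomain h1 T.ne
    rw [T.hG.totalDegree fun h => T.ne (zero_dvd_iff.1 (h ▸ h1)), T.hL.totalDegree T.ne] at h2
    omega
  have h2 : aeval X.y L ∈ (oP X.P).Sec := one_smul ℕ (oP X.P) ▸ aeval_mem_Sec h0 T.hL
  have h3 : aeval X.y (aeval Z r) ∈ (k • oP X.P).Sec := aeval_mem_Sec h0 T.hR
  rw [Lin.bnum_eq ⟨_, h1, (sub_add_cancel _ _).symm⟩]
  refine cyc_nonneg (d := 3) hd (sub_nonneg.2 ((pr_le_iff h1).2 h2)) fun V _ hV h4 => ?_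
  rw [val_sub, val_pr h1, one_lt_div₀ (RZ.pos h1)] at h4
  rcases (h3 V).lt_or_eq with h5 | h5
  · refine (null_of_bd (free_oP.nef.rs (plV V)) ([oP X.P, a, a].map (plV V).rs)
      (List.forall_mem_map.2 ?_) [] (by simp) (T.cone X (lnr_plV V) h4 h5).1).ge
    exact fun x hx => (bd_of_car (car_oP (all_con oP_mem (all_rp ha 2) x hx))).rs _
  have h6 := ne_of_val h5
  have h7 := Pl.val_sub_gen (p := plV V) h5
  refine nonneg_of_mul_nonneg_right (a := (k : ℤ)) ?_ (by have := T.k_ne; omega)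
  rw [List.map_cons, ← bnum_nsmul, ← (lin_rs_nsmul _ _ _).bnum_eq,
    (Pl.lin_rs (p := plV V) h5).bnum_eq]
  refine cyc_nonneg (d := 2) hV (Pl.res_nonneg h7 (sub_nonneg.2 ((pr_le_iff h6).2 h3)))
    fun W _ _ h8 => ?_
  have h9 := Fam.cmp_cmp (plV V) (plV W)
  generalize Fam.cmp (plV V) (plV W) = t at h9
  have h10 := (T.cone X (p := t) (fun c => by rw [h9.r _ (t.V.2 c), lnr_plV, lnr_plV])
    ((h2 _).lt_of_ne fun h => h4.ne (val_of_le h9.le h))
    ((h3 _).lt_of_ne fun h => h8.ne' (h9.val_q (Pl.val_sub_gen h)))).2 a ha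
  rw [← (h9.rs a).bnum_eq, bnum_swap, ← (h9.rs a).bnum_eq] at h10
  exact h10

/-- `h² a² ≥ 0` on a smooth cubic fourfold -/
theorem sq_nonneg_cubic (X : Hyp 5 G K) (hG : SmCub G) [Algebra.EssFiniteType ℂ K]
    (hd : dim ℂ K = 4) {a : BD ℂ K} (ha : a ∈ On X.P) : 0 ≤ bnum [oP X.P, oP X.P, a, a] := by
  obtain ⟨x, hx, -⟩ := exists_ev_ne (P := X.P) (i := 0) (one_mem _) one_ne_zero
  obtain ⟨L, Z, r, k, h1, h2, h3, h4, h5, h6, h7⟩ := exists_cone hG.1 hG.2
    (p := fun j => ev (X.y j / X.y 0) x) (by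
      simp only [div_self (X.y_ne 0)]
      exact (lp x).v_one) (by
      rw [← LP.v_aeval (fun j => y_mem hx j), aeval_div hG.1, (X.ker 3 G hG.1).2 dvd_rfl, zero_div,
        LP.v_zero])
  exact Tg.nonneg ⟨hG.1, h1, h2, h3, h4, h5, h6, h7⟩ X hd ha

/-- **a rational smooth cubic fourfold has Picard number one** -/
theorem rho_cubic (b : Module.Basis (Fin 4) K Ω[K⁄ℂ]) (X : Hyp 5 G K) (hG : SmCub G)
    (Y : Hyp 4 0 K) {a : BD ℂ K} (ha : a ∈ On X.P) :
    ∃ m : ℕ, 0 < m ∧ ∃ c : ℤ, Lin (m • a) (c • oP X.P) := by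
  have := essFiniteType X.P
  have hd : dim ℂ K = 4 := (Module.finrank_eq_card_basis b).trans (Fintype.card_fin _)
  have h1 : 0 < bnum (replicate 4 (oP X.P)) := hd ▸ free_oP.nef.big_iff.1 (big_oP X.P)
  obtain ⟨m, hm⟩ := Int.eq_ofNat_of_zero_le h1.le
  set z := m • a - bnum (a :: replicate 3 (oP X.P)) • oP X.P with hz
  have h2 : z ∈ On X.P := sub_mem (nsmul_mem ha m) (zsmul_mem oP_mem _)
  have h3 : bnum (z :: replicate 3 (oP X.P)) = 0 := by
    rw [hz, bnum_sub, bnum_nsmul, bnum_zsmul, ← List.replicate_succ, hm, mul_comm, sub_self]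
  have h4 := bnum_cs z (free_oP (P := X.P)).nef (all_rp (free_oP (P := X.P)).nef 2)
  rw [← List.replicate_succ, h3, zero_pow two_ne_zero, ← List.replicate_succ] at h4
  have h5 : bnum (z :: z :: replicate 2 (oP X.P)) = 0 := le_antisymm
    (nonpos_of_mul_nonpos_left h4 h1)
    ((sq_nonneg_cubic X hG hd h2).trans_eq (bnum_comm [_, _] [z, z]))
  have h6 := lin_of_numZ (P := Y.P) b rfl (numZ_of_on h2 (fun e => ?_) fun e => ?_)
  · exact ⟨m, by omega, _, by simpa [hz] using h6.add (Lin.rfl (a := bnum (a :: replicate 3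
      (oP X.P)) • oP X.P))⟩
  · by_cases he : e = 3
    exacts [he ▸ h3, bnum_of_ne (by simpa [hd] using he)]
  · by_cases he : e = 2
    exacts [he ▸ h5, bnum_of_ne (by simpa [hd] using he)]

theorem fanoXStmt : FanoXStmt :=
  Fano.fanoX_of_rho fun _ _ _ _ b X hG ⟨Y⟩ _ ha => rho_cubic b X hG Y ha

end Crest.Agent.X262.Rho82
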